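import Mathlib
import Crest.Prelude.Def_LinCircuit

/-! Cost calculus for linear straight-line programs. -/

set_option autoImplicit false
open Matrix

namespace Crest.Agent.R324

abbrev Z := ℕ → ℂ
abbrev Val := Z → ℂ

def Gate (S : Set Val) (φ : Val) : Prop :=
  ∃ a ∈ insert (0 : Val) S, ∃ b ∈ insert (0 : Val) S, φ = a + b ∨ φ = a - b ∨ ∃ c : ℂ, φ = c • a

inductive Reach : Set Val → ℕ → Set Val → Prop
  | base {S T : Set Val} {c : ℕ} (h : T ⊆ insert 0 S) : Reach S c T
  | step {S T : Set Val} {c : ℕ} (φ : Val) (hφ : Gate S φ) (h : Reach (insert φ S) c T) :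
      Reach S (c + 1) T

theorem Gate.mono {S S' : Set Val} {φ : Val} (h : Gate S φ) (hS : S ⊆ insert 0 S') :
    Gate S' φ := by
  obtain ⟨a, ha, b, hb, h⟩ := h
  have key : insert (0 : Val) S ⊆ insert 0 S' := Set.insert_subset (Set.mem_insert _ _) hS
  exact ⟨a, key ha, b, key hb, h⟩

namespace Reach

theorem mono_left {S T : Set Val} {c : ℕ} (h : Reach S c T) :
    ∀ {S' : Set Val}, S ⊆ insert 0 S' → Reach S' c T := by
  induction h with
  | base h => intro S' hS; exact base (h.trans (Set.insert_subset (Set.mem_insert _ _) hS))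
  | step φ hφ _ ih =>
    intro S' hS
    refine step φ (hφ.mono hS) (ih ?_)
    intro v hv
    rcases hv with rfl | hv
    · simp
    · rcases hS hv with rfl | h
      · simp
      · simp [h]

theorem mono_left' {S S' T : Set Val} {c : ℕ} (h : Reach S c T) (hS : S ⊆ S') : Reach S' c T :=
  h.mono_left (hS.trans (Set.subset_insert _ _))

theorem mono_right {S T : Set Val} {c : ℕ} (h : Reach S c T) :
    ∀ {T' : Set Val}, T' ⊆ insert 0 T → Reach S c T' := by
  induction h with
  | base h => intro T' hT; exact base (hT.trans (Set.insert_subset (Set.mem_insert _ _) h))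
  | step φ hφ _ ih => intro T' hT; exact step φ hφ (ih hT)

theorem mono_right' {S T T' : Set Val} {c : ℕ} (h : Reach S c T) (hT : T' ⊆ T) : Reach S c T' :=
  h.mono_right (hT.trans (Set.subset_insert _ _))

theorem mono_cost {S T : Set Val} {c : ℕ} (h : Reach S c T) :
    ∀ {c' : ℕ}, c ≤ c' → Reach S c' T := by
  induction h with
  | base h => intro c' _; exact base h
  | step φ hφ _ ih =>
    intro c' hc
    obtain ⟨d, rfl⟩ : ∃ d, c' = d + 1 := ⟨c' - 1, by omega⟩
    exact step φ hφ (ih (by omega))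

theorem keep {S T : Set Val} {c : ℕ} (h : Reach S c T) : Reach S c (S ∪ T) := by
  induction h with
  | base h => exact base (Set.union_subset (Set.subset_insert _ _) h)
  | step φ hφ _ ih =>
    exact step φ hφ (ih.mono_right' (Set.union_subset_union_left _ (Set.subset_insert _ _)))

theorem trans {S T U : Set Val} {c c' : ℕ} (h : Reach S c T) (h' : Reach T c' U) :
    Reach S (c + c') U := by
  induction h with
  | base h => exact (h'.mono_left h).mono_cost (by omega)
  | @step S T c φ hφ _ ih =>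
    have : c + 1 + c' = (c + c') + 1 := by omega
    rw [this]
    exact step φ hφ (ih h')

theorem trans' {S T U : Set Val} {c c' : ℕ} (h : Reach S c T) (h' : Reach (S ∪ T) c' U) :
    Reach S (c + c') U := h.keep.trans h'

theorem union {S T U : Set Val} {c c' : ℕ} (h : Reach S c T) (h' : Reach S c' U) :
    Reach S (c + c') (T ∪ U) :=
  h.trans' ((h'.mono_left' Set.subset_union_left).keep.mono_right'
    (Set.union_subset_union_left _ Set.subset_union_right))

theorem biUnion {ι : Type*} (s : Finset ι) {S : Set Val} {T : ι → Set Val} {c : ι → ℕ}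
    (h : ∀ i ∈ s, Reach S (c i) (T i)) : Reach S (∑ i ∈ s, c i) (⋃ i ∈ s, T i) := by
  classical
  induction s using Finset.induction_on with
  | empty => exact base (by simp)
  | insert a s ha ih =>
    rw [Finset.sum_insert ha, Finset.set_biUnion_insert]
    exact (h a (by simp)).union (ih fun i hi => h i (by simp [hi]))

theorem iUnion {ι : Type*} [Fintype ι] {S : Set Val} {T : ι → Set Val} {c : ι → ℕ}
    (h : ∀ i, Reach S (c i) (T i)) : Reach S (∑ i, c i) (⋃ i, T i) := by
  have := biUnion Finset.univ (fun i _ => h i)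
  simpa using this

theorem gate {S : Set Val} {φ : Val} (h : Gate S φ) : Reach S 1 {φ} :=
  step φ h (base (by simp))

theorem lin {ι : Type*} (s : Finset ι) {S : Set Val} (c : ι → ℂ) (x : ι → Val)
    (hx : ∀ i ∈ s, x i ∈ insert 0 S) : Reach S (2 * s.card) {∑ i ∈ s, c i • x i} := by
  classical
  induction s using Finset.induction_on with
  | empty => exact base (by simp)
  | insert a s ha ih =>
    rw [Finset.sum_insert ha, Finset.card_insert_of_notMem ha]
    have h1 := ih (fun i hi => hx i (by simp [hi]))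
    have h2 : Reach S 1 {c a • x a} :=
      gate ⟨x a, hx a (by simp), 0, by simp, Or.inr (Or.inr ⟨c a, rfl⟩)⟩
    have h3 : Reach ({∑ i ∈ s, c i • x i} ∪ {c a • x a}) 1 {c a • x a + ∑ i ∈ s, c i • x i} :=
      gate ⟨c a • x a, by simp, ∑ i ∈ s, c i • x i, by simp, Or.inl rfl⟩
    exact ((h1.union h2).trans h3).mono_cost (by omega)

end Reach

open Crest.FourierCircuit in
theorem Reach.exists_gates {S T : Set Val} {c : ℕ} (h : Reach S c T) :
    ∀ L : List Val, (∀ v ∈ insert 0 S, v ∈ L) →
      ∃ (gs : List LGate) (L' : List Val), gs.length ≤ c ∧ (∀ v ∈ T, v ∈ L') ∧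
        ∀ z : Z, gs.foldl (fun avail g => avail ++ [g.value avail]) (L.map (· z)) =
          L'.map (· z) := by
  induction h with
  | base h => intro L hL; exact ⟨[], L, by simp, fun v hv => hL v (h hv), fun z => rfl⟩
  | @step S T c φ hφ _ ih =>
    intro L hL
    obtain ⟨a, ha, b, hb, hφ⟩ := hφ
    obtain ⟨j, hj, hja⟩ := List.getElem_of_mem (hL a ha)
    obtain ⟨k, hk, hkb⟩ := List.getElem_of_mem (hL b hb)
    have ej : ∀ z : Z, (L.map (· z)).getD j 0 = a z := by
      intro z; rw [List.getD_eq_getElem _ _ (by simpa using hj)]; simp [hja]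
    have ek : ∀ z : Z, (L.map (· z)).getD k 0 = b z := by
      intro z; rw [List.getD_eq_getElem _ _ (by simpa using hk)]; simp [hkb]
    obtain ⟨g, hg⟩ : ∃ g : LGate, ∀ z : Z, g.value (L.map (· z)) = φ z := by
      rcases hφ with rfl | rfl | ⟨c, rfl⟩
      · exact ⟨LGate.add j k, fun z => by simp only [LGate.value, ej, ek, Pi.add_apply]⟩
      · exact ⟨LGate.sub j k, fun z => by simp only [LGate.value, ej, ek, Pi.sub_apply]⟩
      · exact ⟨LGate.smul c j, fun z => by
          simp only [LGate.value, ej, Pi.smul_apply, smul_eq_mul]⟩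
    obtain ⟨gs, L', h1, h2, h3⟩ := ih (L ++ [φ]) (by
      intro v hv
      rcases hv with rfl | rfl | hv
      · simp [hL 0 (by simp)]
      · simp
      · simp [hL v (by simp [hv])])
    refine ⟨g :: gs, L', by simp; omega, h2, fun z => ?_⟩
    rw [List.foldl_cons, hg z, ← h3 z]
    simp

/-- the set of rows of an array -/
def rows {κ : Type*} (x : Matrix κ Z ℂ) : Set Val := {v | ∃ i, x i = v}

theorem mem_rows {κ : Type*} (x : Matrix κ Z ℂ) (i : κ) : x i ∈ rows x := ⟨i, rfl⟩

def Cost {ι κ : Type*} [Fintype κ] (A : Matrix ι κ ℂ) (c : ℕ) : Prop :=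
  ∀ x : Matrix κ Z ℂ, Reach (rows x) c (rows (A * x))

theorem mul_row {ι κ : Type*} [Fintype κ] (A : Matrix ι κ ℂ) (x : Matrix κ Z ℂ) (i : ι) :
    (A * x) i = ∑ k, A i k • x k := by
  funext z
  simp [Matrix.mul_apply, Finset.sum_apply]

open Crest.FourierCircuit in
theorem Cost.exists_circuit {n c : ℕ} {A : Matrix (Fin n) (Fin n) ℂ} (h : Cost A c) :
    ∃ P : LinCircuit n, P.Computes A ∧ P.size ≤ c := by
  let x : Matrix (Fin n) Z ℂ := fun k z => z k
  obtain ⟨gs, L', h1, h2, h3⟩ := (h x).exists_gates (List.ofFn (fun k => x k) ++ [0]) (by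
    intro v hv
    rcases hv with rfl | ⟨i, rfl⟩
    · simp
    · simp [List.mem_ofFn])
  have hout : ∀ k : Fin n, ∃ j, ∃ hj : j < L'.length, L'[j] = (A * x) k := fun k =>
    List.getElem_of_mem (h2 _ (mem_rows _ k))
  choose out hout1 hout2 using hout
  refine ⟨⟨gs, out⟩, fun y k => ?_, h1⟩
  let z : Z := fun i => if hi : i < n then y ⟨i, hi⟩ else 0
  have hz : ∀ k : Fin n, x k z = y k := fun k => by simp [x, z]
  have : (List.ofFn (fun k => x k) ++ [0] : List Val).map (· z) = List.ofFn y ++ [0] := by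
    simp only [List.map_append, List.map_ofFn, List.map_cons, List.map_nil, Pi.zero_apply]
    congr 2
    funext k
    exact hz k
  simp only [LinCircuit.values]
  rw [← this, h3 z, List.getD_eq_getElem _ _ (by simpa using hout1 k)]
  simp only [List.getElem_map, hout2]
  simp [Matrix.mul_apply, Matrix.mulVec, dotProduct, hz]

namespace Cost
variable {ι κ μ : Type*} [Fintype κ] [Fintype μ]

theorem mono {A : Matrix ι κ ℂ} {c c' : ℕ} (h : Cost A c) (hc : c ≤ c') : Cost A c' :=
  fun x => (h x).mono_cost hc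

theorem mul {A : Matrix ι κ ℂ} {B : Matrix κ μ ℂ} {a b : ℕ} (hA : Cost A a) (hB : Cost B b) :
    Cost (A * B) (a + b) := by
  intro x
  rw [Matrix.mul_assoc, add_comm]
  exact (hB x).trans (hA (B * x))

theorem of_rows [Fintype ι] {A : Matrix ι κ ℂ} (c : ι → ℕ)
    (h : ∀ (x : Matrix κ Z ℂ) (i : ι), Reach (rows x) (c i) {(A * x) i}) :
    Cost A (∑ i, c i) := by
  intro x
  refine (Reach.iUnion (h x)).mono_right' ?_
  rintro v ⟨i, rfl⟩
  simp

theorem trivial [Fintype ι] (A : Matrix ι κ ℂ) :
    Cost A (Fintype.card ι * (2 * Fintype.card κ)) := by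
  have := of_rows (A := A) (fun _ => 2 * Fintype.card κ) (fun x i => by
    rw [mul_row]
    exact Reach.lin Finset.univ _ _ (fun k _ => Or.inr (mem_rows x k)))
  simpa using this

/-- restriction of rows (arbitrary) and columns (injective) -/
theorem submatrix {ι' κ' : Type*} [Fintype κ'] {A : Matrix ι κ ℂ} {c : ℕ} (h : Cost A c)
    (f : ι' → ι) (g : κ' → κ) (hg : Function.Injective g) : Cost (A.submatrix f g) c := by
  classical
  intro x
  let y : Matrix κ Z ℂ := fun k => if hk : ∃ k', g k' = k then x hk.choose else 0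
  have hy : ∀ k', y (g k') = x k' := by
    intro k'
    have hk : ∃ k'', g k'' = g k' := ⟨k', rfl⟩
    simp only [y, dif_pos hk]
    rw [hg hk.choose_spec]
  have h1 : rows y ⊆ insert 0 (rows x) := by
    rintro v ⟨k, rfl⟩
    by_cases hk : ∃ k', g k' = k
    · obtain ⟨k', rfl⟩ := hk
      rw [hy]; exact Or.inr (mem_rows _ _)
    · left; simp only [y, dif_neg hk]
  refine ((h y).mono_left h1).mono_right' ?_
  rintro v ⟨i, rfl⟩
  refine ⟨f i, ?_⟩
  rw [mul_row, mul_row]
  symm
  apply Finset.sum_of_injOn g hg.injOn (by simp)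
  · intro k _ hk
    have : ¬ ∃ k', g k' = k := by simpa using hk
    simp only [y, dif_neg this, smul_zero]
  · intro k _
    rw [hy]; rfl

/-- block-diagonal sum of matrices (entrywise description) -/
theorem blocks {ρ : Type*} [Fintype ρ] [DecidableEq ρ] {A : ρ → Matrix ι κ ℂ} {c : ρ → ℕ}
    (h : ∀ r, Cost (A r) (c r)) :
    Cost (Matrix.of fun (p : ι × ρ) (q : κ × ρ) => if p.2 = q.2 then A p.2 p.1 q.1 else 0)
      (∑ r, c r) := by
  intro x
  have : ∀ r, Reach (rows x) (c r) (rows (A r * Matrix.of fun k => x (k, r))) := fun r =>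
    (h r _).mono_left' (by rintro v ⟨k, rfl⟩; exact mem_rows x (k, r))
  refine (Reach.iUnion this).mono_right' ?_
  rintro v ⟨⟨i, r⟩, rfl⟩
  simp only [Set.mem_iUnion]
  refine ⟨r, i, ?_⟩
  rw [mul_row, mul_row, Fintype.sum_prod_type]
  apply Finset.sum_congr rfl
  intro k _
  simp only [Matrix.of_apply]
  rw [Finset.sum_eq_single r]
  · simp; rfl
  · intro b _ hb; simp [Ne.symm hb]
  · simp

theorem kron_one {ρ : Type*} [Fintype ρ] [DecidableEq ρ] {A : Matrix ι κ ℂ} {c : ℕ}
    (h : Cost A c) : Cost (kroneckerMap (· * ·) A (1 : Matrix ρ ρ ℂ)) (Fintype.card ρ * c) := by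
  have := blocks (ρ := ρ) (A := fun _ => A) (c := fun _ => c) (fun _ => h)
  simp only [Finset.sum_const, Finset.card_univ, smul_eq_mul] at this
  convert this using 1
  ext ⟨i, r⟩ ⟨k, s⟩
  simp [Matrix.one_apply]

theorem one_kron {ρ : Type*} [Fintype ρ] [DecidableEq ρ] {A : Matrix ι κ ℂ} {c : ℕ}
    (h : Cost A c) : Cost (kroneckerMap (· * ·) (1 : Matrix ρ ρ ℂ) A) (Fintype.card ρ * c) := by
  have := (kron_one (ρ := ρ) h).submatrix Prod.swap Prod.swap Prod.swap_injective
  convert this using 1
  ext ⟨i, r⟩ ⟨k, s⟩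
  simp [Matrix.one_apply, mul_comm]

/-- a matrix with a single `1` (or nothing) in every row is free -/
theorem perm [DecidableEq κ] (f : ι → κ) :
    Cost (Matrix.of fun i k => if k = f i then (1 : ℂ) else 0) 0 := by
  intro x
  refine Reach.base ?_
  rintro v ⟨i, rfl⟩
  right
  refine ⟨f i, ?_⟩
  rw [mul_row]
  simp

theorem mono_mat [Fintype ι] [DecidableEq κ] (f : ι → κ) (d : ι → ℂ) :
    Cost (Matrix.of fun i k => if k = f i then d i else 0) (Fintype.card ι) := by
  have := of_rows (A := Matrix.of fun i k => if k = f i then d i else 0) (fun _ => 1)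
    (fun x i => by
      apply Reach.gate
      refine ⟨x (f i), Or.inr (mem_rows _ _), 0, by simp, Or.inr (Or.inr ⟨d i, ?_⟩)⟩
      rw [mul_row]
      simp)
  simpa using this

theorem diagonal [DecidableEq κ] (d : κ → ℂ) : Cost (Matrix.diagonal d) (Fintype.card κ) := by
  convert mono_mat (fun i : κ => i) d using 1
  ext i j
  simp [Matrix.diagonal_apply, eq_comm]

end Cost

/-- Kronecker product of a family of matrices -/
def piKron {ι : Type*} [Fintype ι] {α β : ι → Type*} (A : ∀ i, Matrix (α i) (β i) ℂ) :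
    Matrix (∀ i, α i) (∀ i, β i) ℂ := Matrix.of fun x y => ∏ i, A i (x i) (y i)

theorem piKron_apply {ι : Type*} [Fintype ι] {α β : ι → Type*} (A : ∀ i, Matrix (α i) (β i) ℂ)
    (x : ∀ i, α i) (y : ∀ i, β i) : piKron A x y = ∏ i, A i (x i) (y i) := rfl

theorem piKron_mul {ι : Type*} [Fintype ι] [DecidableEq ι] {α β γ : ι → Type*}
    [∀ i, Fintype (β i)] (A : ∀ i, Matrix (α i) (β i) ℂ) (B : ∀ i, Matrix (β i) (γ i) ℂ) :
    piKron (fun i => A i * B i) = piKron A * piKron B := by
  ext x z
  simp only [piKron_apply, Matrix.mul_apply, ← Finset.prod_mul_distrib]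
  rw [Finset.prod_univ_sum]
  simp

theorem piKron_mono {ι : Type*} [Fintype ι] [DecidableEq ι] {α β : ι → Type*}
    [∀ i, DecidableEq (β i)] (f : ∀ i, α i → β i) (d : ∀ i, α i → ℂ) :
    piKron (fun i => Matrix.of fun a b => if b = f i a then d i a else 0) =
      Matrix.of fun x y => if y = (fun i => f i (x i)) then ∏ i, d i (x i) else 0 := by
  ext x y
  simp only [piKron_apply, Matrix.of_apply]
  split_ifs with h
  · subst h; simp
  · obtain ⟨i, hi⟩ := Function.ne_iff.mp h
    exact Finset.prod_eq_zero (Finset.mem_univ i) (by simp [hi])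

theorem piKron_diagonal {ι : Type*} [Fintype ι] [DecidableEq ι] {α : ι → Type*}
    [∀ i, DecidableEq (α i)] (d : ∀ i, α i → ℂ) :
    piKron (fun i => Matrix.diagonal (d i)) = Matrix.diagonal fun x => ∏ i, d i (x i) := by
  ext x y
  simp only [piKron_apply, Matrix.diagonal_apply]
  split_ifs with h
  · subst h; simp
  · obtain ⟨i, hi⟩ := Function.ne_iff.mp h
    exact Finset.prod_eq_zero (Finset.mem_univ i) (by simp [hi])

theorem piKron_one {ι : Type*} [Fintype ι] [DecidableEq ι] {α : ι → Type*}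
    [∀ i, DecidableEq (α i)] : piKron (fun i => (1 : Matrix (α i) (α i) ℂ)) = 1 := by
  have := piKron_diagonal (α := α) (fun _ _ => (1 : ℂ))
  simpa using this

theorem piKron_submatrix {ι : Type*} [Fintype ι] {α β α' β' : ι → Type*}
    (A : ∀ i, Matrix (α i) (β i) ℂ) (f : ∀ i, α' i → α i) (g : ∀ i, β' i → β i) :
    piKron (fun i => (A i).submatrix (f i) (g i)) =
      (piKron A).submatrix (fun x i => f i (x i)) (fun y i => g i (y i)) := rfl

end Crest.Agent.R324
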