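import Crest.Agent.R324.Basic

/-! Butterflies, phase operators on the Boolean cube and sums of squares. -/

set_option autoImplicit false
open Matrix Complex

namespace Crest.Agent.R324

noncomputable def ca : ℂ := (1 + I) / 2
noncomputable def cb : ℂ := (1 - I) / 2

theorem ca_add_cb : ca + cb = 1 := by unfold ca cb; ring
theorem ca_sub_cb : ca - cb = I := by unfold ca cb; ring

noncomputable def Cm : Matrix (Fin 2) (Fin 2) ℂ := Matrix.of fun x y => if x = y then ca else cb

noncomputable def Ck (ι : Type) [Fintype ι] : Matrix (ι → Fin 2) (ι → Fin 2) ℂ :=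
  piKron fun _ => Cm

theorem Ck_cost_equiv {ι κ : Type} [Fintype ι] [Fintype κ] [DecidableEq ι] [DecidableEq κ]
    (e : ι ≃ κ) {c : ℕ} (h : Cost (Ck κ) c) : Cost (Ck ι) c := by
  have := h.submatrix (fun (x : ι → Fin 2) k => x (e.symm k)) (fun (x : ι → Fin 2) k => x (e.symm k))
    (fun x y hxy => by
      funext i
      have := congrFun hxy (e i)
      simpa using this)
  convert this using 1
  ext x y
  simp only [Ck, piKron_apply, submatrix_apply]
  exact (Fintype.prod_equiv e.symm _ _ (fun _ => rfl)).symm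

def Bfly {α : Type} [DecidableEq α] (B : Matrix α α ℂ) : Prop :=
  ∃ σ : α → α, (∀ x, σ (σ x) = x) ∧ (∀ x, σ x ≠ x) ∧
    ∀ x y, B x y = (if y = x then ca else 0) + (if y = σ x then cb else 0)

theorem Bfly.exists_equiv {α : Type} [Fintype α] [DecidableEq α] {B : Matrix α α ℂ}
    (h : Bfly B) : ∃ (β : Type) (_ : Fintype β) (_ : DecidableEq β) (e : α ≃ Fin 2 × β),
      ∀ x y, B x y = Cm (e x).1 (e y).1 * if (e x).2 = (e y).2 then 1 else 0 := by
  obtain ⟨σ, h1, h2, h3⟩ := h
  let r := Fintype.equivFin α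
  let β := {x : α // r x < r (σ x)}
  let g : Fin 2 × β → α := fun p => if p.1 = 0 then p.2.1 else σ p.2.1
  have hσ : Function.Injective σ := fun a b hab => by rw [← h1 a, hab, h1]
  have hne : ∀ a b : β, a.1 ≠ σ b.1 := by
    intro a b hab
    have ha := a.2
    have hb := b.2
    rw [hab, h1] at ha
    exact lt_asymm ha hb
  have hg : Function.Bijective g := by
    constructor
    · rintro ⟨i, a⟩ ⟨j, b⟩ hab
      fin_cases i <;> fin_cases j <;> simp [g] at hab ⊢
      · exact Subtype.ext hab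
      · exact hne _ _ hab
      · exact hne _ _ hab.symm
      · exact Subtype.ext (hσ hab)
    · intro x
      rcases lt_trichotomy (r x) (r (σ x)) with hx | hx | hx
      · exact ⟨(0, ⟨x, hx⟩), by simp [g]⟩
      · exact absurd (r.injective hx).symm (h2 x)
      · exact ⟨(1, ⟨σ x, by rwa [h1]⟩), by simp [g, h1]⟩
  refine ⟨β, inferInstance, inferInstance, (Equiv.ofBijective g hg).symm, fun x y => ?_⟩
  obtain ⟨⟨i, a⟩, rfl⟩ := hg.2 x
  obtain ⟨⟨j, b⟩, rfl⟩ := hg.2 y
  simp only [Equiv.ofBijective_symm_apply_apply, h3]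
  have e1 := hne a b
  have e2 := hne b a
  by_cases hab : a = b
  · subst hab
    fin_cases i <;> fin_cases j <;> simp [g, Cm, h1, h2, e1, (h2 _).symm]
  · have hab' : b.1 ≠ a.1 := fun h => hab (Subtype.ext h.symm)
    have hab'' : σ b.1 ≠ σ a.1 := fun h => hab' (hσ h)
    fin_cases i <;> fin_cases j <;> simp [g, Cm, h1, h2, e1, e2, hab, hab', hab'', e1.symm]

theorem cost_piKron_bfly {ι : Type} [Fintype ι] [DecidableEq ι] {α : ι → Type}
    [∀ i, Fintype (α i)] [∀ i, DecidableEq (α i)] (B : ∀ i, Matrix (α i) (α i) ℂ)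
    (hB : ∀ i, Bfly (B i)) {c : ℕ} (hc : Cost (Ck ι) c) :
    Cost (piKron B) ((∏ i, Fintype.card (α i)) / 2 ^ Fintype.card ι * c) := by
  choose β fβ dβ e he using fun i => (hB i).exists_equiv
  have h1 := (hc.kron_one (ρ := ∀ i, β i)).submatrix
    (fun x : (∀ i, α i) => (fun i => (e i (x i)).1, fun i => (e i (x i)).2))
    (fun x : (∀ i, α i) => (fun i => (e i (x i)).1, fun i => (e i (x i)).2))
    (fun x y hxy => by
      funext i
      apply (e i).injective
      exact Prod.ext (congrFun (congrArg Prod.fst hxy) i) (congrFun (congrArg Prod.snd hxy) i))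
  have h2 : (∏ i, Fintype.card (α i)) / 2 ^ Fintype.card ι = Fintype.card (∀ i, β i) := by
    have : ∀ i, Fintype.card (α i) = 2 * Fintype.card (β i) := fun i => by
      rw [Fintype.card_congr (e i)]; simp
    simp only [this, Finset.prod_mul_distrib, Finset.prod_const, Finset.card_univ, Fintype.card_pi]
    exact Nat.mul_div_cancel_left _ (by positivity)
  rw [h2]
  convert h1 using 1
  ext x y
  simp only [piKron_apply, he, submatrix_apply, kroneckerMap_apply, Ck, Finset.prod_mul_distrib]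
  congr 1
  rw [← piKron_one, piKron_apply]
  simp [Matrix.one_apply]

/-! ### phase operators -/

noncomputable def H2 : Matrix (Fin 2) (Fin 2) ℂ := !![1, 1; 1, -1]
noncomputable def H2' : Matrix (Fin 2) (Fin 2) ℂ := !![1/2, 1/2; 1/2, -1/2]

theorem H2_mul : H2 * H2' = 1 := by
  ext i j; fin_cases i <;> fin_cases j <;> simp [H2, H2', Matrix.mul_apply] <;> norm_num
theorem H2'_mul : H2' * H2 = 1 := by
  ext i j; fin_cases i <;> fin_cases j <;> simp [H2, H2', Matrix.mul_apply] <;> norm_num

theorem H2_diag (g : Fin 2 → ℂ) (a b : Fin 2) : (H2 * diagonal g * H2') a b =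
    if a = b then (g 0 + g 1) / 2 else (g 0 - g 1) / 2 := by
  rw [Matrix.mul_apply, Fin.sum_univ_two, mul_diagonal, mul_diagonal]
  fin_cases a <;> fin_cases b <;> simp [H2, H2'] <;> ring

section
variable {M : Type} [Fintype M] [DecidableEq M]

noncomputable def Op (φ : (M → Fin 2) → ℂ) : Matrix (M → Fin 2) (M → Fin 2) ℂ :=
  piKron (fun _ : M => H2) * diagonal φ * piKron (fun _ : M => H2')

theorem Op_mul (φ ψ : (M → Fin 2) → ℂ) : Op (fun z => φ z * ψ z) = Op φ * Op ψ := by
  have h : piKron (fun _ : M => H2') * piKron (fun _ : M => H2) = 1 := by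
    rw [← piKron_mul]; simp only [H2'_mul, piKron_one]
  unfold Op
  rw [← diagonal_mul_diagonal]
  simp only [Matrix.mul_assoc]
  rw [← Matrix.mul_assoc (piKron (fun _ : M => H2')), h, Matrix.one_mul]

theorem Op_prod (g : M → Fin 2 → ℂ) :
    Op (fun z => ∏ i, g i (z i)) = piKron fun i => H2 * diagonal (g i) * H2' := by
  rw [piKron_mul, piKron_mul, piKron_diagonal]; rfl

theorem Op_one : Op (fun _ : M → Fin 2 => (1 : ℂ)) = 1 := by
  have := Op_prod (M := M) (fun _ _ => 1)
  simpa [H2_mul, piKron_one] using this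

theorem Op_lin (a b : ℂ) (φ : (M → Fin 2) → ℂ) :
    Op (fun z => a + b * φ z) = a • (1 : Matrix _ _ ℂ) + b • Op φ := by
  rw [← Op_one]
  unfold Op
  have : diagonal (fun z => a + b * φ z) =
      a • diagonal (fun _ : M → Fin 2 => (1 : ℂ)) + b • diagonal φ := by
    ext i j; by_cases h : i = j <;> simp [diagonal_apply, h]
  rw [this]
  simp only [Matrix.mul_add, Matrix.add_mul, Matrix.mul_smul, Matrix.smul_mul]

theorem zpow_sum0 {ι : Type*} {a : ℂ} (ha : a ≠ 0) (s : Finset ι) (f : ι → ℤ) :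
    a ^ (∑ i ∈ s, f i) = ∏ i ∈ s, a ^ f i := by
  classical
  induction s using Finset.induction_on with
  | empty => simp
  | insert x s hx ih => rw [Finset.sum_insert hx, Finset.prod_insert hx, zpow_add₀ ha, ih]

/-- parity vector -/
def par (w : M → ℤ) : M → Fin 2 := fun i => if Even (w i) then 0 else 1

theorem Op_chi (w : M → ℤ) :
    Op (fun z : M → Fin 2 => (-1 : ℂ) ^ (∑ i, w i * ((z i : ℕ) : ℤ))) =
      Matrix.of fun x y => if y = x + par w then 1 else 0 := by
  simp only [zpow_sum0 (show (-1 : ℂ) ≠ 0 by norm_num)]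
  rw [Op_prod (fun i t => (-1 : ℂ) ^ (w i * ((t : ℕ) : ℤ)))]
  have : ∀ i, H2 * diagonal (fun t : Fin 2 => (-1 : ℂ) ^ (w i * ((t : ℕ) : ℤ))) * H2' =
      Matrix.of fun a b => if b = a + par w i then 1 else 0 := by
    intro i
    ext a b
    rw [H2_diag]
    by_cases h : Even (w i)
    · fin_cases a <;> fin_cases b <;> simp [par, h, h.neg_one_zpow]
    · have h' : Odd (w i) := Int.not_even_iff_odd.mp h
      fin_cases a <;> fin_cases b <;> simp [par, h, h'.neg_one_zpow]
  simp only [this]
  rw [piKron_mono (fun i (a : Fin 2) => a + par w i) (fun _ _ => 1)]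
  ext x y
  simp only [of_apply, Finset.prod_const_one]
  rfl

def qf (B : Matrix M M ℤ) (z : M → Fin 2) : ℤ :=
  ∑ i, ∑ j, ((z i : ℕ) : ℤ) * B i j * ((z j : ℕ) : ℤ)

noncomputable def Psi1 (B : Matrix M M ℤ) : Matrix (M → Fin 2) (M → Fin 2) ℂ :=
  Op fun z => I ^ qf B z

theorem Psi1_add (B B' : Matrix M M ℤ) : Psi1 (B + B') = Psi1 B * Psi1 B' := by
  unfold Psi1
  rw [← Op_mul]
  congr 1
  funext z
  rw [← zpow_add₀ I_ne_zero]
  congr 1
  simp [qf, mul_add, add_mul, Finset.sum_add_distrib]

theorem Psi1_zero : Psi1 (0 : Matrix M M ℤ) = 1 := by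
  unfold Psi1
  simp [qf, Op_one]

theorem Psi1_one : Psi1 (1 : Matrix M M ℤ) = Ck M := by
  unfold Psi1
  have : ∀ z : M → Fin 2, I ^ qf (1 : Matrix M M ℤ) z =
      ∏ i, I ^ (((z i : ℕ) : ℤ) * ((z i : ℕ) : ℤ)) := by
    intro z
    rw [← zpow_sum0 I_ne_zero]
    simp [qf, Matrix.one_apply]
  simp only [this]
  rw [Op_prod (fun _ t => I ^ (((t : ℕ) : ℤ) * ((t : ℕ) : ℤ)))]
  unfold Ck
  congr 1
  funext _
  ext a b
  rw [H2_diag]
  simp [Cm, ca, cb]

theorem I_zpow_sq (n : ℤ) : I ^ (n * n) = ca + cb * (-1) ^ n := by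
  rcases Int.even_or_odd' n with ⟨k, rfl | rfl⟩
  · have : 2 * k * (2 * k) = 4 * (k * k) := by ring
    rw [this, _root_.zpow_mul, (even_two_mul k).neg_one_zpow, mul_one, ca_add_cb]
    have : I ^ (4 : ℤ) = 1 := by exact_mod_cast I_pow_four
    rw [this, _root_.one_zpow]
  · have : (2 * k + 1) * (2 * k + 1) = 4 * (k * k + k) + 1 := by ring
    rw [this, zpow_add₀ I_ne_zero, _root_.zpow_mul, (odd_two_mul_add_one k).neg_one_zpow]
    have : I ^ (4 : ℤ) = 1 := by exact_mod_cast I_pow_four
    rw [this, _root_.one_zpow, ← ca_sub_cb]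
    simp only [zpow_one]
    ring

theorem Psi1_sq (v : M → ℤ) : Psi1 (vecMulVec v v) =
    ca • (1 : Matrix _ _ ℂ) + cb • Matrix.of fun x y => if y = x + par v then 1 else 0 := by
  rw [← Op_chi, ← Op_lin]
  unfold Psi1
  congr 1
  funext z
  rw [← I_zpow_sq]
  congr 1
  simp only [qf, vecMulVec_apply, Finset.sum_mul_sum]
  refine Finset.sum_congr rfl fun i _ => Finset.sum_congr rfl fun j _ => by ring

theorem Psi1_even (S : Matrix M M ℤ) (hS : S.IsSymm) : Psi1 (2 • S) =
    Matrix.of fun x y => if y = x + par (fun i => S i i) then 1 else 0 := by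
  rw [← Op_chi]
  unfold Psi1
  congr 1
  funext z
  have h1 : qf (2 • S) z = 2 * qf S z := by
    simp only [qf, Finset.mul_sum, Matrix.smul_apply, nsmul_eq_mul]
    refine Finset.sum_congr rfl fun i _ => Finset.sum_congr rfl fun j _ => by push_cast; ring
  have h2 : I ^ (2 : ℤ) = -1 := by exact_mod_cast I_sq
  rw [h1, _root_.zpow_mul, h2]
  have h3 : Even (qf S z - ∑ i, S i i * ((z i : ℕ) : ℤ)) := by
    rw [← ZMod.intCast_eq_zero_iff_even]
    unfold qf
    push_cast
    rw [← Finset.sum_product', ← Finset.diag_union_offDiag,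
      Finset.sum_union (Finset.disjoint_diag_offDiag _), Finset.sum_diag]
    have h4 : ∑ p ∈ (Finset.univ : Finset M).offDiag,
        ((z p.1 : ℕ) : ZMod 2) * (S p.1 p.2 : ZMod 2) * ((z p.2 : ℕ) : ZMod 2) = 0 := by
      apply Finset.sum_involution (fun p _ => p.swap)
      · intro p _
        simp only [Prod.fst_swap, Prod.snd_swap]
        rw [hS.apply p.1 p.2]
        have : ∀ a b c : ZMod 2, a * b * c + c * b * a = 0 := by decide
        exact this _ _ _
      · intro p hp _ h
        have := congrArg Prod.fst h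
        simp at hp this
        exact hp this.symm
      · intro p _; rfl
      · intro p hp
        simp at hp ⊢
        exact fun h => hp h.symm
    rw [h4, add_zero, ← Finset.sum_sub_distrib]
    refine Finset.sum_eq_zero fun i _ => ?_
    have : ∀ a b : ZMod 2, a * b * a - b * a = 0 := by decide
    exact this _ _
  obtain ⟨k, hk⟩ := h3
  have : qf S z = ∑ i, S i i * ((z i : ℕ) : ℤ) + 2 * k := by linarith
  rw [this, zpow_add₀ (by norm_num), (even_two_mul k).neg_one_zpow, mul_one]

/-- `B` is, modulo twice a symmetric matrix, a sum of at most `k` squares -/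
inductive Sq {M : Type} : ℕ → Matrix M M ℤ → Prop
  | even (k : ℕ) (S : Matrix M M ℤ) (hS : S.IsSymm) : Sq k (2 • S)
  | add {k : ℕ} {B : Matrix M M ℤ} (v : M → ℤ) (h : Sq k B) : Sq (k + 1) (B + vecMulVec v v)

noncomputable def Psi (f : ℕ) (B : Matrix M M ℤ) :
    Matrix (Fin f → M → Fin 2) (Fin f → M → Fin 2) ℂ := piKron fun _ => Psi1 B

theorem Psi_add (f : ℕ) (B B' : Matrix M M ℤ) : Psi f (B + B') = Psi f B * Psi f B' := by
  unfold Psi; rw [← piKron_mul]; simp only [Psi1_add]

theorem Psi_zero (f : ℕ) : Psi f (0 : Matrix M M ℤ) = 1 := by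
  unfold Psi; simp only [Psi1_zero, piKron_one]

theorem cost_one {κ : Type} [Fintype κ] [DecidableEq κ] : Cost (1 : Matrix κ κ ℂ) 0 := by
  convert Cost.perm (fun i : κ => i) using 1
  ext i j
  simp [Matrix.one_apply, eq_comm]

theorem Psi_cost (f : ℕ) {c : ℕ} (hc : Cost (Ck (Fin f)) c) {k : ℕ} {B : Matrix M M ℤ}
    (h : Sq k B) : Cost (Psi f B) (k * ((2 ^ Fintype.card M) ^ f / 2 ^ f * c)) := by
  induction h with
  | even k S hS =>
    refine Cost.mono ?_ (Nat.zero_le _)
    unfold Psi
    simp only [Psi1_even S hS]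
    rw [piKron_mono (fun (_ : Fin f) (x : M → Fin 2) => x + par (fun i => S i i)) (fun _ _ => 1)]
    simp only [Finset.prod_const_one]
    exact Cost.perm _
  | @add k B v _ ih =>
    rw [Psi_add, add_mul, one_mul]
    refine ih.mul ?_
    unfold Psi
    by_cases hv : par v = 0
    · have : Psi1 (vecMulVec v v) = 1 := by
        rw [Psi1_sq, hv]
        ext x y
        by_cases hxy : x = y
        · subst hxy; simp [ca_add_cb]
        · simp [hxy, Ne.symm hxy]
      simp only [this, piKron_one]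
      exact cost_one.mono (Nat.zero_le _)
    · have := cost_piKron_bfly (fun _ : Fin f => Psi1 (vecMulVec v v)) (fun _ =>
        ⟨fun x => x + par v, fun x => by
            funext i
            have : ∀ a b : Fin 2, a + b + b = a := by decide
            exact this _ _,
          fun x hx => hv (by simpa using hx), fun x y => by
            rw [Psi1_sq]
            simp [Matrix.one_apply, eq_comm]⟩) hc
      simpa using this

theorem Psi_one_cost (f : ℕ) : Psi f (1 : Matrix M M ℤ) =
    (Ck (Fin f × M)).submatrix (fun x p => x p.1 p.2) (fun x p => x p.1 p.2) := by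
  ext x y
  simp only [Psi, Psi1_one, Ck, piKron_apply, submatrix_apply, Fintype.prod_prod_type]

end

end Crest.Agent.R324
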