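import Crest.Agent.R324.Lay

/-! Fourier matrices: Cooley–Tukey, Bluestein, and in-place layered circuits. -/

set_option autoImplicit false
set_option linter.unusedSectionVars false
open Matrix Complex Crest.FourierCircuit
open scoped Kronecker

namespace Crest.Agent.R324

noncomputable def ex (x : ℂ) : ℂ := exp (2 * Real.pi * I * x)

theorem ex_add (x y : ℂ) : ex (x + y) = ex x * ex y := by
  unfold ex; rw [mul_add, exp_add]

theorem ex_nat (n : ℕ) : ex n = 1 := by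
  unfold ex; rw [mul_comm]; exact exp_nat_mul_two_pi_mul_I n

theorem dft_apply (n : ℕ) (j k : Fin n) : dftMatrix n j k = ex ((j : ℕ) * (k : ℕ) / n) := by
  simp only [dftMatrix, of_apply, ex]
  rw [← exp_nat_mul]
  congr 1
  push_cast
  ring

noncomputable def Fz (n : ℕ) [NeZero n] : Matrix (ZMod n) (ZMod n) ℂ :=
  Matrix.of fun a c => ZMod.stdAddChar (a * c)

theorem Fz_apply (n : ℕ) [NeZero n] (a c : ZMod n) :
    Fz n a c = ex ((a.val : ℕ) * (c.val : ℕ) / n) := by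
  have : a * c = ((a.val * c.val : ℤ) : ZMod n) := by simp
  simp only [Fz, of_apply, ex]
  rw [this, ZMod.stdAddChar_coe]
  congr 1
  push_cast
  ring

theorem exists_zmod_equiv (n : ℕ) [NeZero n] : ∃ e : ZMod n ≃ Fin n, ∀ a, (e a : ℕ) = a.val := by
  cases n with
  | zero => exact absurd rfl (NeZero.ne 0)
  | succ n => exact ⟨Equiv.refl _, fun _ => rfl⟩

theorem Fz_eq_dft (n : ℕ) [NeZero n] :
    ∃ e : ZMod n ≃ Fin n, Fz n = (dftMatrix n).submatrix e e := by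
  obtain ⟨e, he⟩ := exists_zmod_equiv n
  exact ⟨e, by ext a c; simp [Fz_apply, dft_apply, he]⟩

theorem Fz_mul_Fz (n : ℕ) [NeZero n] :
    Fz n * Fz n = Matrix.of fun a b => if b = -a then (n : ℂ) else 0 := by
  ext a b
  simp only [Matrix.mul_apply, Fz, of_apply, ← AddChar.map_add_eq_mul]
  have : ∀ x : ZMod n, a * x + x * b = x * (a + b) := fun x => by ring
  simp only [this]
  rw [AddChar.sum_mulShift _ (ZMod.isPrimitive_stdAddChar n), ZMod.card]
  by_cases h : b = -a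
  · simp [h]
  · rw [if_neg h, if_neg (fun h' => h (eq_neg_of_add_eq_zero_right h'))]; simp

noncomputable def negM (n : ℕ) (c : ℂ) : Matrix (ZMod n) (ZMod n) ℂ :=
  Matrix.of fun a b => if b = -a then c else 0

theorem negM_mono (n : ℕ) (c : ℂ) : Mono (negM n c) := ⟨fun a => -a, fun _ => c, rfl⟩

theorem negM_mul (n : ℕ) [NeZero n] (c c' : ℂ) : negM n c * negM n c' = (c * c') • 1 := by
  ext a b
  rw [Matrix.mul_apply, Finset.sum_eq_single (-a)]
  · simp [negM, one_apply, eq_comm]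
  · intro x _ hx; simp [negM, hx]
  · simp

theorem Fz_inv (n : ℕ) [NeZero n] (c : ℂ) : negM n c * Fz n * Fz n = (c * n) • 1 := by
  rw [Matrix.mul_assoc, Fz_mul_Fz]; exact negM_mul n c n

theorem Fz_inv' (n : ℕ) [NeZero n] : negM n (n : ℂ)⁻¹ * Fz n * Fz n = 1 := by
  rw [Fz_inv, inv_mul_cancel₀ (by exact_mod_cast NeZero.ne n), one_smul]

theorem cooley_tukey (a b : ℕ) : ∃ (e1 e2 : Fin (a * b) ≃ Fin a × Fin b)
    (tw : Fin a × Fin b → ℂ), dftMatrix (a * b) =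
      ((1 : Matrix (Fin a) (Fin a) ℂ) ⊗ₖ dftMatrix b * diagonal tw *
        dftMatrix a ⊗ₖ (1 : Matrix (Fin b) (Fin b) ℂ)).submatrix e1 e2 := by
  let e1 : Fin a × Fin b ≃ Fin (a * b) :=
    (Equiv.prodComm _ _).trans (finProdFinEquiv.trans (finCongr (mul_comm b a)))
  refine ⟨e1.symm, finProdFinEquiv.symm, fun p => ex ((p.1 : ℕ) * (p.2 : ℕ) / (a * b : ℕ)), ?_⟩
  ext j k
  obtain ⟨⟨j1, j0⟩, rfl⟩ := e1.surjective j
  obtain ⟨⟨k1, k0⟩, rfl⟩ := finProdFinEquiv.surjective k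
  have ha : (a : ℂ) ≠ 0 := by exact_mod_cast j1.pos.ne'
  have hb : (b : ℂ) ≠ 0 := by exact_mod_cast j0.pos.ne'
  rw [submatrix_apply, Equiv.symm_apply_apply, Equiv.symm_apply_apply, Matrix.mul_apply,
    Finset.sum_eq_single (j1, k0)]
  · simp only [mul_diagonal, kroneckerMap_apply, one_apply_eq, one_mul, mul_one, dft_apply,
      ← ex_add]
    rw [← mul_one (ex (_ + _ + _)), ← ex_nat (j0 * k1), ← ex_add]
    congr 1
    simp [e1]
    field_simp
    ring
  · rintro ⟨x, y⟩ _ h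
    by_cases hx : x = j1
    · have hy : y ≠ k0 := fun hy => h (by rw [hx, hy])
      simp [mul_diagonal, one_apply, hy]
    · simp [mul_diagonal, one_apply, Ne.symm hx]
  · simp

theorem Cm_bfly : Bfly Cm :=
  ⟨fun x => x + 1, by decide, by decide, fun x y => by
    fin_cases x <;> fin_cases y <;> simp [Cm]⟩

theorem lay_dft_two : Lay 1 (dftMatrix 2) := by
  have := Lay.step (Lay.mono (Mono.diagonal (![1, I] : Fin 2 → ℂ))) Cm_bfly
    (Mono.diagonal (![1 - I, 1 + I] : Fin 2 → ℂ))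
  refine this.of_eq ?_ rfl
  ext i j
  rw [mul_diagonal, diagonal_mul, dft_apply]
  have h : ex (2⁻¹) = -1 := by
    unfold ex
    rw [← exp_pi_mul_I]; congr 1; ring
  have h0 : ex 0 = 1 := by simp [ex]
  fin_cases i <;> fin_cases j <;> simp [Cm, ca, cb, h, h0, Complex.ext_iff] <;> norm_num

theorem lay_dft_pow (k : ℕ) : Lay k (dftMatrix (2 ^ k)) := by
  induction k with
  | zero =>
    refine (Lay.mono Mono.one).of_eq ?_ rfl
    ext i j
    have hi : i = 0 := Subsingleton.elim (α := Fin 1) _ _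
    have hj : j = 0 := Subsingleton.elim (α := Fin 1) _ _
    subst hi hj
    simp [dftMatrix]
  | succ k ih =>
    obtain ⟨e1, e2, tw, h⟩ := cooley_tukey (2 ^ k) 2
    exact (((lay_dft_two.one_kron.mul (Lay.mono (Mono.diagonal tw))).mul ih.kron_one).submatrix
      e2 e1).of_eq h (by omega)

theorem lay_Fz_pow (k : ℕ) : Lay k (Fz (2 ^ k)) := by
  obtain ⟨e, he⟩ := Fz_eq_dft (2 ^ k)
  exact ((lay_dft_pow k).submatrix e e).of_eq he rfl

theorem bluestein {A : Type} [AddCommGroup A] [Fintype A] [DecidableEq A] (F F' : Matrix A A ℂ)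
    (hmul : ∀ a a' c, F (a + a') c = F a c * F a' c) (hsym : ∀ a c, F a c = F c a)
    (hinv : F' * F = 1) (φ : ℤ →+ A) (n : ℕ)
    (hφ : ∀ t : ℤ, |t| < 2 * n → φ t = 0 → t = 0) :
    ∃ (d : A → ℂ) (w : ℕ → ℂ), ∀ j k : ℕ, j < n → k < n →
      ex (j * k / n) = w j * (F * diagonal d * F) (φ j) (-φ k) * w k := by
  classical
  let τ : ℤ → ℂ := fun t => ex (-(t * t) / (2 * n))
  let κ : A → ℂ := fun a => if h : ∃ t : ℤ, |t| < n ∧ φ t = a then τ h.choose else 0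
  have hκ : ∀ t : ℤ, |t| < n → κ (φ t) = τ t := by
    intro t ht
    have h : ∃ s : ℤ, |s| < n ∧ φ s = φ t := ⟨t, ht, rfl⟩
    simp only [κ, dif_pos h]
    congr 1
    have h1 := h.choose_spec
    have := hφ (h.choose - t) (by have := abs_sub h.choose t; omega) (by rw [map_sub, h1.2, sub_self])
    omega
  have hinv' : F * F' = 1 := mul_eq_one_comm.1 hinv
  refine ⟨F' *ᵥ κ, fun j => ex (j * j / (2 * n)), fun j k hj hk => ?_⟩
  have h1 : (F * diagonal (F' *ᵥ κ) * F) (φ j) (-φ k) = κ (φ (j - k)) := by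
    have : κ = F *ᵥ (F' *ᵥ κ) := by rw [mulVec_mulVec, hinv', one_mulVec]
    conv_rhs => rw [this]
    rw [Matrix.mul_apply, map_sub, sub_eq_add_neg]
    simp only [mul_diagonal, mulVec, dotProduct, hmul]
    refine Finset.sum_congr rfl fun c _ => ?_
    rw [hsym c]; ring
  rw [h1, hκ _ (by rw [abs_lt]; constructor <;> omega)]
  simp only [τ, ← ex_add]
  congr 1
  have : (n : ℂ) ≠ 0 := by exact_mod_cast (by omega : n ≠ 0)
  push_cast
  field_simp
  ring

theorem Fz_add (n : ℕ) [NeZero n] (a a' c : ZMod n) : Fz n (a + a') c = Fz n a c * Fz n a' c := by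
  simp [Fz, add_mul, AddChar.map_add_eq_mul]

theorem Fz_symm (n : ℕ) [NeZero n] (a c : ZMod n) : Fz n a c = Fz n c a := by
  simp [Fz, mul_comm]

theorem shl_Fz (q k : ℕ) [NeZero q] (h1 : 2 * q ≤ 2 ^ k) (h2 : 2 ^ k ≤ 4 * q) :
    ShL (32 * (k + 3)) (Fz q ⊗ₖ (1 : Matrix (Fin 4) (Fin 4) ℂ)) := by
  have hφ : ∀ t : ℤ, |t| < 2 * q → Int.castAddHom (ZMod (2 ^ k)) t = 0 → t = 0 := by
    intro t ht h
    have h : ((2 ^ k : ℕ) : ℤ) ∣ t := (ZMod.intCast_zmod_eq_zero_iff_dvd t _).1 h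
    refine Int.eq_zero_of_abs_lt_dvd h ?_
    have : ((2 * q : ℕ) : ℤ) ≤ (2 ^ k : ℕ) := by exact_mod_cast h1
    push_cast at this ⊢
    omega
  obtain ⟨d, w, hw⟩ := bluestein (Fz (2 ^ k)) _ (Fz_add _) (Fz_symm _) (Fz_inv' _) _ q hφ
  have hL : Lay k (negM (2 ^ k) ((2 ^ k : ℕ) : ℂ)⁻¹ * Fz (2 ^ k)) :=
    Lay.mono_mul (negM_mono _ _) (lay_Fz_pow k)
  have hZ : ShL (2 * (k + 3)) (Fz (2 ^ k) * diagonal d * Fz (2 ^ k)) :=
    ((ShL.one.diag_left d).conj (lay_Fz_pow k) hL (lay_Fz_pow k) hL (Fz_inv' _)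
      (mul_eq_one_comm.1 (Fz_inv' _))).of_eq (by simp) (by omega)
  have hinj : Function.Injective fun j : ZMod q => Int.castAddHom (ZMod (2 ^ k)) (j.val : ℕ) := by
    intro j j' h
    have := hφ ((j.val : ℕ) - (j'.val : ℕ)) (by
      have := j.val_lt; have := j'.val_lt
      rw [abs_lt]; constructor <;> omega) (by rw [map_sub]; exact sub_eq_zero.2 h)
    exact ZMod.val_injective q (by omega)
  have hb : ∀ b : Fin 4, ShL (8 * (k + 3)) (Matrix.of fun (p p' : ZMod q × Fin 4) =>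
      if p.2 = b ∧ p'.2 = b then Fz q p.1 p'.1 else 0) := fun b =>
    hZ.transplant (by simp; omega) _ (fun j : ZMod q => -Int.castAddHom (ZMod (2 ^ k)) (j.val : ℕ))
      hinj (neg_injective.comp hinj) (fun j => (j, b)) (fun j => (j, b))
      (fun _ _ h => congrArg Prod.fst h) (fun _ _ h => congrArg Prod.fst h)
      (fun j => w j.val) (fun j => w j.val) _
      (fun j j' => by
        simp only [of_apply, and_self, if_true]
        rw [Fz_apply, hw _ _ j.val_lt j'.val_lt])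
      (fun p p' h => by
        have : p.2 ≠ b := fun h' => h p.1 (by rw [← h'])
        simp [this])
      (fun p p' h => by
        have : p'.2 ≠ b := fun h' => h p'.1 (by rw [← h'])
        simp [this])
  refine ((((hb 0).add (hb 1)).add (hb 2)).add (hb 3)).of_eq ?_ (by omega)
  ext ⟨j, b⟩ ⟨j', b'⟩
  fin_cases b <;> fin_cases b' <;> simp

theorem lay_Fz (q k : ℕ) [NeZero q] (h1 : 2 * q ≤ 2 ^ k) (h2 : 2 ^ k ≤ 4 * q) :
    Lay (96 * (k + 3)) (fromBlocks (Fz q ⊗ₖ (1 : Matrix (Fin 4) (Fin 4) ℂ)) 0 0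
      (Fz q ⊗ₖ (1 : Matrix (Fin 4) (Fin 4) ℂ))) := by
  have hq : (q : ℂ) ≠ 0 := by exact_mod_cast NeZero.ne q
  refine ((shl_Fz q k h1 h2).three (negM_mono q (-(q : ℂ)⁻¹)).kron_one
    (negM_mono q (-(q : ℂ))).kron_one ?_ ?_).of_eq rfl (by omega)
  · rw [← mul_kronecker_mul, negM_mul]
    simp [hq]
  · rw [← mul_kronecker_mul, ← mul_kronecker_mul, Fz_inv]
    rw [smul_kronecker, neg_mul, inv_mul_cancel₀ hq]
    simp

def Good {α β : Type} (A : Matrix α β ℂ) (w t : ℕ) : Prop :=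
  ∃ (Ω : Type) (_ : Fintype Ω) (_ : DecidableEq Ω) (U : Matrix Ω Ω ℂ) (f : α → Ω) (g : β → Ω),
    Function.Injective g ∧ Lay t U ∧ Fintype.card Ω ≤ w ∧ A = U.submatrix f g

theorem Good.submatrix {α β α' β' : Type} {A : Matrix α β ℂ} {w t : ℕ} (h : Good A w t)
    (f : α' → α) (g : β' → β) (hg : Function.Injective g) : Good (A.submatrix f g) w t := by
  obtain ⟨Ω, i1, i2, U, f', g', h1, h2, h3, rfl⟩ := h
  exact ⟨Ω, i1, i2, U, f' ∘ f, g' ∘ g, h1.comp hg, h2, h3, rfl⟩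

theorem Good.cost {ι : Type} [Fintype ι] [DecidableEq ι] {α β : ι → Type} [∀ i, Fintype (β i)]
    {A : ∀ i, Matrix (α i) (β i) ℂ} {w : ι → ℕ} {t c : ℕ} (h : ∀ i, Good (A i) (w i) t)
    (hc : Cost (Ck ι) c) :
    Cost (piKron A) (t * ((∏ i, w i) / 2 ^ Fintype.card ι * c) + (t + 1) * ∏ i, w i) := by
  choose Ω i1 i2 U f g h1 h2 h3 h4 using h
  have : A = fun i => (U i).submatrix (f i) (g i) := funext h4
  rw [this, piKron_submatrix]
  refine ((Lay.cost_piKron hc t U h2).submatrix _ _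
    (fun x y hxy => funext fun i => h1 i (congrFun hxy i))).mono ?_
  have : ∏ i, Fintype.card (Ω i) ≤ ∏ i, w i := Finset.prod_le_prod' fun i _ => h3 i
  gcongr

theorem good_dft (q k T : ℕ) (hq : q ≠ 0) (h1 : 2 * q ≤ 2 ^ k) (h2 : 2 ^ k ≤ 4 * q)
    (hT : k ≤ T) :
    Good (dftMatrix q ⊗ₖ (1 : Matrix (Fin q) (Fin q) ℂ)) (q * (q + 8)) (96 * (T + 3)) := by
  have : NeZero q := ⟨hq⟩
  obtain ⟨e, he⟩ := Fz_eq_dft q
  obtain ⟨ι⟩ : Nonempty (Fin q ↪ (Fin 4 ⊕ Fin 4) × Fin (q / 8 + 1)) :=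
    Function.Embedding.nonempty_of_card_le (by simp; omega)
  have hL := (((lay_Fz q k h1 h2).mul (Lay.one_even Sum.swap (by simp)
    (by rintro (x | x) <;> simp) (48 * (T - k)))).kron_one (β := Fin (q / 8 + 1)))
  rw [Matrix.mul_one] at hL
  let f : Fin q × Fin q → ((ZMod q × Fin 4) ⊕ (ZMod q × Fin 4)) × Fin (q / 8 + 1) := fun p =>
    (Sum.map (fun b => (e.symm p.1, b)) (fun b => (e.symm p.1, b)) (ι p.2).1, (ι p.2).2)
  refine ⟨_, inferInstance, inferInstance, _, f, f, ?_, hL.of_eq rfl (by omega), ?_, ?_⟩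
  · rintro ⟨j, i⟩ ⟨j', i'⟩ h
    simp only [f, Prod.mk.injEq] at h
    obtain ⟨h3, h4⟩ := h
    have : (ι i).1 = (ι i').1 ∧ j = j' := by
      rcases hi : (ι i).1 with b | b <;> rcases hi' : (ι i').1 with b' | b' <;>
        simp [hi, hi'] at h3 ⊢ <;> exact ⟨h3.2, h3.1⟩
    rw [this.2, ι.injective (Prod.ext this.1 h4)]
  · simp
    have : 8 * (q / 8 + 1) ≤ q + 8 := by omega
    nlinarith
  · ext ⟨j, i⟩ ⟨j', i'⟩
    have h5 : (i = i') ↔ ((ι i).1 = (ι i').1 ∧ (ι i).2 = (ι i').2) := by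
      rw [← Prod.ext_iff, ι.injective.eq_iff]
    simp only [kroneckerMap_apply, submatrix_apply, f, one_apply, h5, he]
    rcases (ι i).1 with b | b <;> rcases (ι i').1 with b' | b' <;>
      by_cases h6 : (ι i).2 = (ι i').2 <;> simp [h6, one_apply]

end Crest.Agent.R324
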