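import Crest.Agent.R324.Cube

/-! Algebra of sums of squares and the triple design. -/

set_option autoImplicit false
open Matrix
open scoped Kronecker

namespace Crest.Agent.R324

namespace Sq
variable {M M' : Type}

theorem mono {k : ℕ} {B : Matrix M M ℤ} (h : Sq k B) : ∀ {k' : ℕ}, k ≤ k' → Sq k' B := by
  induction h with
  | even k S hS => intro k' _; exact even k' S hS
  | add v _ ih =>
    intro k' hk
    obtain ⟨d, rfl⟩ : ∃ d, k' = d + 1 := ⟨k' - 1, by omega⟩
    exact add v (ih (by omega))

theorem isSymm_sq (v : M → ℤ) : (vecMulVec v v).IsSymm := by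
  ext i j; simp [vecMulVec_apply, mul_comm]

theorem isSymm {k : ℕ} {B : Matrix M M ℤ} (h : Sq k B) : B.IsSymm := by
  induction h with
  | even k S hS => exact hS.smul _
  | add v _ ih => exact ih.add (isSymm_sq v)

theorem zero (k : ℕ) : Sq k (0 : Matrix M M ℤ) := by
  have := even k (0 : Matrix M M ℤ) isSymm_zero
  simpa using this

theorem sq (v : M → ℤ) : Sq 1 (vecMulVec v v) := by
  have := add v (zero 0)
  simpa using this

theorem add_even {k : ℕ} {B : Matrix M M ℤ} (h : Sq k B) (S : Matrix M M ℤ) (hS : S.IsSymm) :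
    Sq k (B + 2 • S) := by
  induction h with
  | even k S' hS' => rw [← smul_add]; exact even k _ (hS'.add hS)
  | add v _ ih => rw [add_right_comm]; exact add v ih

theorem plus {k k' : ℕ} {B B' : Matrix M M ℤ} (h : Sq k B) (h' : Sq k' B') :
    Sq (k + k') (B + B') := by
  induction h' with
  | even k' S hS => exact (h.add_even S hS).mono (by omega)
  | add v _ ih => rw [← add_assoc, ← add_assoc]; exact add v ih

theorem neg {k : ℕ} {B : Matrix M M ℤ} (h : Sq k B) : Sq k (-B) := by
  have := h.add_even (-B) h.isSymm.neg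
  convert this using 1
  rw [two_smul]; abel

theorem of_eq {k : ℕ} {B B' : Matrix M M ℤ} (h : Sq k B) (e : B' = B) : Sq k B' := e ▸ h

theorem conj [Fintype M] {k : ℕ} {B : Matrix M M ℤ} (h : Sq k B) (R : Matrix M' M ℤ) :
    Sq k (R * B * Rᵀ) := by
  induction h with
  | even k S hS =>
    rw [Matrix.mul_smul, Matrix.smul_mul]
    refine even k _ ?_
    unfold Matrix.IsSymm
    rw [transpose_mul, transpose_mul, transpose_transpose, hS.eq, Matrix.mul_assoc]
  | add v _ ih =>
    rw [Matrix.mul_add, Matrix.add_mul, mul_vecMulVec, vecMulVec_mul, vecMul_transpose]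
    exact add _ ih

theorem kron_symm {A : Matrix M M ℤ} {B : Matrix M' M' ℤ} (hA : A.IsSymm) (hB : B.IsSymm) :
    (A ⊗ₖ B).IsSymm := by
  ext ⟨i, j⟩ ⟨k, l⟩
  simp [hA.apply, hB.apply]

theorem sq_kron (v : M → ℤ) {k : ℕ} {B : Matrix M' M' ℤ} (h : Sq k B) :
    Sq k (vecMulVec v v ⊗ₖ B) := by
  induction h with
  | even k S hS =>
    rw [kronecker_smul]
    exact even k _ (kron_symm (isSymm_sq v) hS)
  | add w _ ih =>
    rw [kronecker_add]
    have := add (fun p : M × M' => v p.1 * w p.2) ih
    convert this using 2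
    ext ⟨i, j⟩ ⟨k, l⟩
    simp [vecMulVec_apply]; ring

theorem kron {k k' : ℕ} {A : Matrix M M ℤ} {B : Matrix M' M' ℤ} (hA : Sq k A) (hB : Sq k' B) :
    Sq (k * k') (A ⊗ₖ B) := by
  induction hA with
  | even k S hS =>
    rw [smul_kronecker]
    exact even _ _ (kron_symm hS hB.isSymm)
  | add w _ ih =>
    rw [add_kronecker, add_mul, one_mul]
    exact ih.plus (sq_kron w hB)

end Sq

section
variable {H : Type} [Fintype H] [DecidableEq H]

def ind (A : Finset H) : H → ℤ := fun i => if i ∈ A then 1 else 0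
def tt (A : Finset H) : Matrix H H ℤ := vecMulVec (ind A) (ind A)
def dg (A : Finset H) : Matrix H H ℤ := diagonal (ind A)

theorem dg_erase {A : Finset H} {d : H} (hd : d ∈ A) : dg (A.erase d) = dg A - tt {d} := by
  ext i j
  by_cases h : i = j
  · subst h
    by_cases h' : i = d <;> simp [dg, tt, ind, vecMulVec_apply, h', hd]
  · by_cases h' : i = d
    · subst h'
      simp [dg, tt, ind, vecMulVec_apply, h, Ne.symm h]
    · simp [dg, tt, ind, vecMulVec_apply, h, h']

theorem sq_dg (A : Finset H) : Sq A.card (dg A) := by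
  induction A using Finset.induction_on with
  | empty =>
    refine (Sq.zero _).of_eq ?_
    ext i j; simp [dg, ind, diagonal_apply]
  | insert a s ha ih =>
    rw [Finset.card_insert_of_notMem ha]
    refine (Sq.add (ind {a}) ih).of_eq ?_
    have := dg_erase (Finset.mem_insert_self a s)
    rw [Finset.erase_insert ha] at this
    rw [this]; simp [tt]

theorem dg_univ : dg (Finset.univ : Finset H) = 1 := by
  ext i j; simp [dg, ind, diagonal_apply, one_apply]

theorem sq_one : Sq (Fintype.card H) (1 : Matrix H H ℤ) := by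
  have := sq_dg (Finset.univ : Finset H)
  rwa [dg_univ] at this

theorem ind_dot (A B : Finset H) : ind A ⬝ᵥ ind B = ((A ∩ B).card : ℤ) := by
  have : ∀ i, ind A i * ind B i = if i ∈ A ∩ B then 1 else 0 := by
    intro i
    by_cases h1 : i ∈ A <;> by_cases h2 : i ∈ B <;> simp [ind, h1, h2]
  simp only [dotProduct, this]
  rw [Finset.sum_ite_mem, Finset.univ_inter]
  simp

theorem refl_sq (w x : H → ℤ) :
    (1 - vecMulVec w w) * vecMulVec x x * (1 - vecMulVec w w)ᵀ =
      vecMulVec (x - (w ⬝ᵥ x) • w) (x - (w ⬝ᵥ x) • w) := by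
  rw [mul_vecMulVec, vecMulVec_mul, vecMul_transpose, sub_mulVec, one_mulVec, vecMulVec_mulVec]
  simp

theorem refl_dg (A F : Finset H) (hF : F ⊆ A) (h4 : F.card = 4) :
    (1 - tt F) * dg A * (1 - tt F)ᵀ = dg A + 2 • tt F := by
  have h1 : tt F * dg A = tt F := by
    ext i j
    by_cases hj : j ∈ F
    · simp [tt, dg, mul_diagonal, vecMulVec_apply, ind, hj, hF hj]
    · simp [tt, dg, mul_diagonal, vecMulVec_apply, ind, hj]
  have h2 : dg A * tt F = tt F := by
    ext i j
    by_cases hi : i ∈ F
    · simp [tt, dg, diagonal_mul, vecMulVec_apply, ind, hi, hF hi]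
    · simp [tt, dg, diagonal_mul, vecMulVec_apply, ind, hi]
  have h3 : tt F * tt F = 4 • tt F := by
    unfold tt
    rw [vecMulVec_mul_vecMulVec, ind_dot, Finset.inter_self, h4]
    ext i j; simp [vecMulVec_apply]; ring
  have h5 : (1 - tt F)ᵀ = 1 - tt F := by
    rw [transpose_sub, transpose_one, tt, (Sq.isSymm_sq _).eq]
  rw [h5, Matrix.sub_mul, Matrix.one_mul, h1, Matrix.mul_sub, Matrix.mul_one, Matrix.sub_mul, h2, h3]
  abel

theorem refl_pt {T : Finset H} {d : H} (hd : d ∉ T) :
    (1 - tt (insert d T)) * tt {d} * (1 - tt (insert d T))ᵀ = tt T := by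
  unfold tt
  rw [refl_sq, ind_dot]
  have : insert d T ∩ {d} = {d} := by ext x; simp
  rw [this]
  ext i j
  have key : ∀ i, ind {d} i - ind (insert d T) i = - ind T i := by
    intro i
    by_cases h : i = d
    · subst h; simp [ind, hd]
    · simp [ind, h]
  simp [vecMulVec_apply, key]

theorem sq_dg_sub {A T : Finset H} {d : H} (hT : T ⊆ A) (h3 : T.card = 3) (hdA : d ∈ A)
    (hd : d ∉ T) : Sq (A.card - 1) (dg A - tt T) := by
  have h1 := (sq_dg (A.erase d)).conj (1 - tt (insert d T))
  rw [Finset.card_erase_of_mem hdA, dg_erase hdA, Matrix.mul_sub, Matrix.sub_mul, refl_pt hd,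
    refl_dg A _ (Finset.insert_subset hdA hT) (by rw [Finset.card_insert_of_notMem hd, h3])] at h1
  refine (h1.add_even (-tt (insert d T)) (Sq.isSymm_sq _).neg).of_eq ?_
  rw [smul_neg]; abel

theorem exists_notMem {A : Finset H} (h : A.card < Fintype.card H) : ∃ d, d ∉ A := by
  by_contra hc
  push Not at hc
  have : A = Finset.univ := Finset.eq_univ_iff_forall.mpr hc
  rw [this] at h
  simp at h

theorem sq_one_sub {T : Finset H} (h3 : T.card = 3) (hH : 7 ≤ Fintype.card H) :
    Sq (Fintype.card H - 1) (1 - tt T) := by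
  obtain ⟨d, hd⟩ := exists_notMem (A := T) (by omega)
  have := sq_dg_sub (Finset.subset_univ T) h3 (Finset.mem_univ d) hd
  rwa [dg_univ] at this

theorem sq_one_sub_sub {S T : Finset H} (hS : S.card = 3) (hT : T.card = 3)
    (he : Even (S ∩ T).card) (hH : 7 ≤ Fintype.card H) :
    Sq (Fintype.card H - 2) (1 - tt S - tt T) := by
  obtain ⟨d, hd⟩ := exists_notMem (A := S ∪ T) (by have := Finset.card_union_le S T; omega)
  rw [Finset.mem_union, not_or] at hd
  obtain ⟨d', hd'⟩ := exists_notMem (A := insert d T)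
    (by have := Finset.card_insert_le d T; omega)
  rw [Finset.mem_insert, not_or] at hd'
  have h1 := (sq_dg_sub (A := Finset.univ.erase d) (T := T) (d := d')
    (fun x hx => by simp; rintro rfl; exact hd.2 hx) hT (by simp [hd'.1]) hd'.2).conj
    (1 - tt (insert d S))
  rw [Finset.card_erase_of_mem (Finset.mem_univ d), dg_erase (Finset.mem_univ d), Matrix.mul_sub,
    Matrix.mul_sub, Matrix.sub_mul, Matrix.sub_mul, refl_pt hd.1,
    refl_dg _ _ (Finset.subset_univ _) (by rw [Finset.card_insert_of_notMem hd.1, hS]),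
    dg_univ] at h1
  obtain ⟨c, hc⟩ := he
  have h2 : (1 - tt (insert d S)) * tt T * (1 - tt (insert d S))ᵀ =
      vecMulVec (ind T - (c + c : ℤ) • ind (insert d S))
        (ind T - (c + c : ℤ) • ind (insert d S)) := by
    unfold tt
    rw [refl_sq, ind_dot, Finset.insert_inter_of_notMem hd.2, hc]
    simp
  rw [h2] at h1
  let w := ind (insert d S)
  let t := ind T
  have hs : (-vecMulVec w w - (c : ℤ) • (vecMulVec w t + vecMulVec t w) +
      (2 * c * c : ℤ) • vecMulVec w w).IsSymm := by
    ext i j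
    simp only [vecMulVec_apply, transpose_apply, Matrix.add_apply, Matrix.sub_apply,
      Matrix.neg_apply, Matrix.smul_apply, smul_eq_mul]
    ring
  refine ((h1.add_even _ hs).of_eq ?_).mono (by simp; omega)
  ext i j
  simp only [vecMulVec_apply, tt, w, t, Matrix.add_apply, Matrix.sub_apply,
      Matrix.neg_apply, Matrix.smul_apply, smul_eq_mul, Pi.sub_apply, Pi.smul_apply, two_nsmul]
  ring

end

/-- abstract data of the network motif -/
structure Design (H 𝒮 E Cn : Type) [Fintype 𝒮] [DecidableEq 𝒮] [Fintype E] [Fintype Cn]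
    [DecidableEq H] (g : ℕ) where
  T : 𝒮 → Matrix H H ℤ
  fst : E → 𝒮
  snd : E → 𝒮
  J : E → ℂ
  R : 𝒮 → Cn → ℂ
  G : Cn → 𝒮 → ℂ
  sq1 : Sq (g + 2) (1 : Matrix H H ℤ)
  sqT : ∀ s, Sq 1 (T s)
  sqN : ∀ s, Sq (g + 1) (1 - T s)
  sqE : ∀ e, Sq g (1 - T (fst e) - T (snd e))
  key : ∀ (β : 𝒮 → ℂ) (s : 𝒮), ∑ j, R s j * ∑ t, G j t * β t +
    ∑ e ∈ Finset.univ.filter (fun e => fst e = s), J e * β (snd e) = β s

abbrev Tri := {S : Finset (Fin 20) // S.card = 3}
abbrev Side := {p : Tri × Tri // Even (p.1.1 ∩ p.2.1).card}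

set_option linter.constructorNameAsVariable false in
noncomputable def triDesign : Design (Fin 20) Tri Side (Option (Fin 20)) 18 where
  T s := tt s.1
  fst e := e.1.1
  snd e := e.1.2
  J e := -((((e.1.1.1 ∩ e.1.2.1).card : ℂ) - 1) / 2)
  R s j := match j with
    | none => -1 / 2
    | some j => if j ∈ s.1 then 1 / 2 else 0
  G j t := match j with
    | none => 1
    | some j => if j ∈ t.1 then 1 else 0
  sq1 := by simpa using sq_one (H := Fin 20)
  sqT s := Sq.sq _
  sqN s := by simpa using sq_one_sub s.2 (by simp)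
  sqE e := by simpa using sq_one_sub_sub e.1.1.2 e.1.2.2 e.2 (by simp)
  key β s := by
    have h1 : ∑ e ∈ Finset.univ.filter (fun e : Side => e.1.1 = s),
        -((((e.1.1.1 ∩ e.1.2.1).card : ℂ) - 1) / 2) * β e.1.2 =
        ∑ t : Tri, (if Even (s.1 ∩ t.1).card then -((((s.1 ∩ t.1).card : ℂ) - 1) / 2) else 0) * β t := by
      simp only [ite_mul, zero_mul]
      rw [← Finset.sum_filter]
      refine Finset.sum_bij (fun e _ => e.1.2) ?_ ?_ ?_ ?_
      · rintro ⟨⟨a, b⟩, h⟩ he
        simp only [Finset.mem_filter, Finset.mem_univ, true_and] at he ⊢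
        subst he; exact h
      · rintro ⟨⟨a, b⟩, h⟩ he ⟨⟨a', b'⟩, h'⟩ he' hb
        simp only [Finset.mem_filter, Finset.mem_univ, true_and] at he he' hb
        subst he he' hb; rfl
      · intro t ht
        simp only [Finset.mem_filter, Finset.mem_univ, true_and] at ht
        exact ⟨⟨(s, t), ht⟩, by simp, rfl⟩
      · rintro ⟨⟨a, b⟩, h⟩ he
        simp only [Finset.mem_filter, Finset.mem_univ, true_and] at he
        subst he; rfl
    rw [h1]
    simp only [Finset.mul_sum]
    rw [Finset.sum_comm, ← Finset.sum_add_distrib]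
    rw [Finset.sum_eq_single s]
    · have : ¬ Even 3 := by decide
      simp only [Fintype.sum_option, Finset.inter_self, s.2, this, if_false, zero_mul, add_zero,
        ← mul_assoc, ← Finset.sum_mul, ← add_mul]
      have : ∑ j : Fin 20, (if j ∈ s.1 then (1 / 2 : ℂ) else 0) * (if j ∈ s.1 then 1 else 0) =
          3 / 2 := by
        simp only [ite_mul, mul_ite, mul_one, mul_zero, zero_mul, ← ite_and, and_self]
        simp [s.2]; norm_num
      rw [this]; ring
    · intro t _ hts
      simp only [Fintype.sum_option, ← mul_assoc, ← Finset.sum_mul, ← add_mul]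
      have h2 : ∑ j : Fin 20, (if j ∈ s.1 then (1 / 2 : ℂ) else 0) * (if j ∈ t.1 then 1 else 0) =
          ((s.1 ∩ t.1).card : ℂ) / 2 := by
        have : ∀ j : Fin 20, (if j ∈ s.1 then (1 / 2 : ℂ) else 0) * (if j ∈ t.1 then 1 else 0) =
            if j ∈ s.1 ∩ t.1 then 1 / 2 else 0 := by
          intro j
          by_cases h1 : j ∈ s.1 <;> by_cases h2 : j ∈ t.1 <;> simp [h1, h2]
        simp only [this]
        rw [Finset.sum_ite_mem, Finset.univ_inter]
        simp; ring
      rw [h2]
      split_ifs with he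
      · ring
      · have h3 : (s.1 ∩ t.1).card ≤ 3 := by
          have := Finset.card_le_card (Finset.inter_subset_left (s₁ := s.1) (s₂ := t.1))
          rwa [s.2] at this
        have h4 : (s.1 ∩ t.1).card ≠ 3 := by
          intro h4
          have e1 : s.1 ∩ t.1 = s.1 :=
            Finset.eq_of_subset_of_card_le Finset.inter_subset_left (by rw [h4, s.2])
          have e2 : s.1 ∩ t.1 = t.1 :=
            Finset.eq_of_subset_of_card_le Finset.inter_subset_right (by rw [h4, t.2])
          exact hts (Subtype.ext (e2.symm.trans e1))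
        have h5 : (s.1 ∩ t.1).card = 1 := by
          rw [Nat.not_even_iff_odd, Nat.odd_iff] at he
          omega
        rw [h5]; ring
    · simp

theorem card_Tri : Fintype.card Tri = 1140 := by
  rw [Fintype.card_finset_len]; simp; rfl

theorem card_Side : Fintype.card Side ≤ 1140 * 1140 := by
  have := Fintype.card_subtype_le (fun p : Tri × Tri => Even (p.1.1 ∩ p.2.1).card)
  rwa [Fintype.card_prod, card_Tri] at this

end Crest.Agent.R324
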