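import Crest.Agent.R324.Recur

/-! Solving the recursion. -/

set_option autoImplicit false
open Matrix Crest.FourierCircuit

namespace Crest.Agent.R324

theorem theta_eq : savingExponent =
    1 + Real.log (1 - 6871402692000000 / 2 ^ 71 / 10 ^ 6) / Real.log (10 ^ 6) := by
  have h : (0 : ℝ) < Real.log (10 ^ 6) := Real.log_pos (by norm_num)
  unfold savingExponent Real.logb
  have : (10 ^ 6 - 6871402692000000 / 2 ^ 71 : ℝ) =
      10 ^ 6 * (1 - 6871402692000000 / 2 ^ 71 / 10 ^ 6) := by ring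
  rw [this, Real.log_mul (by norm_num) (by norm_num)]
  field_simp

theorem theta_le_one : savingExponent ≤ 1 := by
  rw [theta_eq]
  have h : (0 : ℝ) < Real.log (10 ^ 6) := Real.log_pos (by norm_num)
  have h2 : Real.log (1 - 6871402692000000 / 2 ^ 71 / 10 ^ 6) ≤ 0 :=
    Real.log_nonpos (by norm_num) (by norm_num)
  have := div_nonpos_of_nonpos_of_nonneg h2 h.le
  linarith

theorem theta_nonneg : 0 ≤ savingExponent :=
  Real.logb_nonneg (by norm_num) (by norm_num)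

theorem lam_lt : ((2 ^ 32 * 400 - 342000 : ℕ) : ℝ) / 2 ^ 32 < (400 : ℝ) ^ savingExponent := by
  have h : (0 : ℝ) < Real.log (10 ^ 6) := Real.log_pos (by norm_num)
  have h2 : Real.log (1 - 6871402692000000 / 2 ^ 71 / 10 ^ 6) ≤ 0 :=
    Real.log_nonpos (by norm_num) (by norm_num)
  have h3 : Real.log 400 ≤ Real.log (10 ^ 6) := Real.log_le_log (by norm_num) (by norm_num)
  have h4 : Real.log 400 / Real.log (10 ^ 6) ≤ 1 := (div_le_one h).2 h3
  have h5 : (400 : ℝ) * (1 - 6871402692000000 / 2 ^ 71 / 10 ^ 6) ≤ (400 : ℝ) ^ savingExponent := by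
    rw [Real.rpow_def_of_pos (by norm_num), theta_eq,
      ← Real.exp_log (show (0 : ℝ) < 400 * (1 - 6871402692000000 / 2 ^ 71 / 10 ^ 6) by norm_num),
      Real.log_mul (by norm_num) (by norm_num)]
    apply Real.exp_le_exp.2
    have : Real.log 400 * (1 + Real.log (1 - 6871402692000000 / 2 ^ 71 / 10 ^ 6) /
        Real.log (10 ^ 6)) = Real.log 400 + Real.log (1 - 6871402692000000 / 2 ^ 71 / 10 ^ 6) *
        (Real.log 400 / Real.log (10 ^ 6)) := by ring
    rw [this]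
    nlinarith
  refine lt_of_lt_of_le ?_ h5
  norm_num

theorem Ck_bound : ∃ A : ℝ, 0 ≤ A ∧ ∀ K : ℕ, ∃ c : ℕ, Cost (Ck (Fin K)) c ∧
    (c : ℝ) ≤ A * 2 ^ K * ((K : ℝ) + 1) ^ savingExponent := by
  obtain ⟨c0, hrec⟩ := Ck_rec
  simp only [show 399 + 1 = 400 from rfl] at hrec
  have hl := lam_lt
  generalize (2 ^ 32 * 400 - 342000 : ℕ) = s at hrec hl
  set θ := savingExponent
  have hθ : 0 ≤ θ := theta_nonneg
  have hm : (0 : ℝ) < 400 ^ θ := by positivity
  set ρ : ℝ := (s : ℝ) / 2 ^ 32 / 400 ^ θ with hρ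
  have hρ1 : ρ < 1 := (div_lt_one hm).2 hl
  have hρ0 : 0 ≤ ρ := by positivity
  obtain ⟨B, hB0, hB⟩ : ∃ B : ℝ, 0 ≤ B ∧ ∀ K < 832, (2 * 2 ^ K : ℝ) ≤ B :=
    ⟨2 * 2 ^ 832, by positivity, fun K hK =>
      mul_le_mul_of_nonneg_left (pow_le_pow_right₀ (by norm_num) hK.le) (by norm_num)⟩
  set A : ℝ := B + c0 / (1 - ρ) with hA
  have hc0 : 0 ≤ (c0 : ℝ) / (1 - ρ) := div_nonneg (by positivity) (by linarith)
  have hA0 : 0 ≤ A := by positivity
  have hA1 : (c0 : ℝ) ≤ (1 - ρ) * A := by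
    have : (1 - ρ) * ((c0 : ℝ) / (1 - ρ)) = c0 := by field_simp [(by linarith : (1 - ρ) ≠ 0)]
    nlinarith
  refine ⟨A, hA0, fun K => ?_⟩
  induction K using Nat.strong_induction_on with
  | _ K ih =>
    have hK1 : (1 : ℝ) ≤ ((K : ℝ) + 1) ^ θ := Real.one_le_rpow (by linarith [Nat.cast_nonneg (α := ℝ) K]) hθ
    by_cases hK : K < 832
    · refine ⟨_, Ck_trivial (Fin K), ?_⟩
      simp only [Fintype.card_fin]
      push_cast
      have h1 := hB K hK
      have h2 : (0 : ℝ) < 2 ^ K := by positivity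
      calc (2 : ℝ) ^ K * (2 * 2 ^ K) ≤ 2 ^ K * A := by gcongr; linarith
        _ = A * 2 ^ K * 1 := by ring
        _ ≤ _ := by gcongr
    · obtain ⟨f, j, hj, hj', rfl⟩ : ∃ f j, j < 800 ∧ 400 ≤ j ∧ K = 32 + j + 400 * f :=
        ⟨(K - 432) / 400, 400 + (K - 432) % 400, by omega, by omega, by omega⟩
      obtain ⟨c, hc, hcb⟩ := ih f (by omega)
      refine ⟨_, hrec f j c hj hc, ?_⟩
      have e1 : ((f : ℝ) + 1) ^ θ ≤ (((32 + j + 400 * f : ℕ) : ℝ) + 1) ^ θ / 400 ^ θ := by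
        rw [← Real.div_rpow (by positivity) (by norm_num)]
        apply Real.rpow_le_rpow (by positivity) _ hθ
        rw [le_div_iff₀ (by norm_num)]
        have : (400 : ℝ) ≤ j := by exact_mod_cast hj'
        push_cast
        linarith
      generalize (((32 + j + 400 * f : ℕ) : ℝ) + 1) ^ θ = X at *
      have e2 : (2 : ℝ) ^ (32 + j + 400 * f) = 2 ^ 32 * 2 ^ j * (2 ^ (399 * f) * 2 ^ f) := by
        rw [← pow_add, ← pow_add, ← pow_add]; congr 1; ring
      push_cast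
      rw [e2]
      have e3 : (s : ℝ) = ρ * 400 ^ θ * 2 ^ 32 := by rw [hρ]; field_simp
      have e4 : (c : ℝ) ≤ A * 2 ^ f * (X / 400 ^ θ) := hcb.trans (by gcongr)
      calc (2 : ℝ) ^ j * (s * (2 ^ (399 * f) * c)) + c0 * (2 ^ 32 * 2 ^ j * (2 ^ (399 * f) * 2 ^ f))
          ≤ 2 ^ j * (s * (2 ^ (399 * f) * (A * 2 ^ f * (X / 400 ^ θ)))) +
            ((1 - ρ) * A * X) * (2 ^ 32 * 2 ^ j * (2 ^ (399 * f) * 2 ^ f)) := by
            gcongr
            have : 0 ≤ (1 - ρ) * A := mul_nonneg (by linarith) hA0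
            nlinarith
        _ = _ := by rw [e3]; field_simp; ring

end Crest.Agent.R324
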