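import Crest.Agent.R324.DFT
import Crest.Agent.R324.Power

/-! Choice of moduli and the final assembly. -/

set_option autoImplicit false
open Matrix Crest.FourierCircuit
open scoped Kronecker

namespace Crest.Agent.R324

theorem many_primes (L : ℕ) :
    L + 2 ≤ (Nat.primesLE (2 ^ (2 * (Nat.log 2 (L + 3) + 1)))).card := by
  set i := Nat.log 2 (L + 3) + 1 with hi
  have h1 : L + 3 < 2 ^ i := Nat.lt_pow_succ_log_self (by norm_num) _
  have h2 : 2 * i ≤ 2 ^ i := by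
    have := Nat.lt_two_pow_self (n := Nat.log 2 (L + 3))
    rw [hi, pow_succ]; omega
  by_contra hc
  push Not at hc
  set P := 2 ^ (2 * i) with hP
  have h3 := Chebyshev.two_pow_le_mul_lcmUpto P
  have hP0 : P ≠ 0 := by positivity
  have h4 : Nat.lcmUpto P ≤ P ^ (L + 1) := by
    rw [Nat.lcmUpto_eq_prod_pow_log]
    calc ∏ p ∈ Nat.primesLE P, p ^ p.log P ≤ P ^ (Nat.primesLE P).card :=
          Finset.prod_le_pow_card _ _ _ fun p _ => Nat.pow_log_le_self p hP0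
      _ ≤ P ^ (L + 1) := Nat.pow_le_pow_right (Nat.pos_of_ne_zero hP0) (by omega)
  have h5 : 2 ^ P ≤ 2 ^ (2 * i * (L + 2) + 1) := by
    calc 2 ^ P ≤ (P + 1) * Nat.lcmUpto P := h3
      _ ≤ (2 * P) * P ^ (L + 1) := Nat.mul_le_mul (by have := Nat.pos_of_ne_zero hP0; generalize P = R at *; omega) h4
      _ = 2 ^ (2 * i * (L + 2) + 1) := by rw [hP, ← pow_mul]; ring
  have h6 : P ≤ 2 * i * (L + 2) + 1 := (Nat.pow_le_pow_iff_right (by norm_num)).1 h5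
  have h7 : P = 2 ^ i * 2 ^ i := by rw [hP, ← pow_add]; congr 1; ring
  have h8 : 1 ≤ i := by omega
  nlinarith

theorem exists_moduli (n : ℕ) (hn : n ≠ 0) : ∃ (S : Finset ℕ) (a j : ℕ),
    (∀ p ∈ S, p.Prime ∧ p ≠ 2 ∧ p ≤ 2 ^ j) ∧
    2 * n ≤ 2 ^ a * ∏ p ∈ S, (p ^ 2 * p ^ 2) ∧ 2 ^ a * ∏ p ∈ S, (p ^ 2 * p ^ 2) ≤ 4 * n ∧
    a ≤ 4 * j + 1 ∧ S.card ≤ Nat.log 2 n ∧ j = 2 * (Nat.log 2 (Nat.log 2 n + 3) + 1) := by
  set L := Nat.log 2 n with hL
  set j := 2 * (Nat.log 2 (L + 3) + 1) with hj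
  let O := (Nat.primesLE (2 ^ j)).erase 2
  have hO : L + 1 ≤ O.card := by
    have := many_primes L
    have h2 := Finset.pred_card_le_card_erase (s := Nat.primesLE (2 ^ j)) (a := 2)
    rw [← hj] at this
    simp only [O]; omega
  have hOm : ∀ p ∈ O, p.Prime ∧ p ≠ 2 ∧ p ≤ 2 ^ j := fun p hp => by
    simp only [O, Finset.mem_erase, Nat.mem_primesLE] at hp
    exact ⟨hp.2.2, hp.1, hp.2.1⟩
  have hpow : ∀ S ⊆ O, 2 ^ S.card ≤ ∏ p ∈ S, (p ^ 2 * p ^ 2) := fun S hS =>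
    Finset.pow_card_le_prod _ _ _ fun p hp => by
      have := (hOm p (hS hp)).1.two_le
      nlinarith [Nat.pow_le_pow_left this 2]
  obtain ⟨S, hS, hmax⟩ := Finset.exists_max_image
    (O.powerset.filter fun S => ∏ p ∈ S, (p ^ 2 * p ^ 2) ≤ n) Finset.card
    ⟨∅, by simp; omega⟩
  rw [Finset.mem_filter, Finset.mem_powerset] at hS
  set Q := ∏ p ∈ S, (p ^ 2 * p ^ 2) with hQ
  have hcard : S.card ≤ L := Nat.le_log_of_pow_le (by norm_num) ((hpow S hS.1).trans hS.2)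
  obtain ⟨p, hpO, hpS⟩ : ∃ p ∈ O, p ∉ S := by
    by_contra hc
    push Not at hc
    have := Finset.card_le_card (show O ⊆ S from hc)
    omega
  have h1 : n < 2 ^ (4 * j) * Q := by
    by_contra hc
    push Not at hc
    have h2 : p ^ 2 * p ^ 2 ≤ 2 ^ (4 * j) := by
      have := Nat.pow_le_pow_left (hOm p hpO).2.2 4
      rw [← pow_mul, mul_comm j] at this
      rw [← pow_add]; exact this
    have := hmax (insert p S) (by
      rw [Finset.mem_filter, Finset.mem_powerset, Finset.prod_insert hpS]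
      exact ⟨Finset.insert_subset hpO hS.1, (Nat.mul_le_mul_right _ h2).trans hc⟩)
    rw [Finset.card_insert_of_notMem hpS] at this
    omega
  have hex : ∃ a, 2 * n ≤ 2 ^ a * Q := ⟨4 * j + 1, by rw [pow_succ]; nlinarith⟩
  refine ⟨S, Nat.find hex, j, fun p hp => hOm p (hS.1 hp), Nat.find_spec hex, ?_,
    Nat.find_min' hex (by rw [pow_succ]; nlinarith), hcard, rfl⟩
  rcases h : Nat.find hex with _ | b
  · have := hS.2; simp; omega
  · have := Nat.find_min hex (m := b) (by omega)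
    rw [pow_succ, ← hQ]; push Not at this; nlinarith

theorem pad_bound (S : Finset ℕ) (hS : ∀ p ∈ S, p ≠ 0) :
    ((∏ p ∈ S, (p ^ 2 * (p ^ 2 + 8)) : ℕ) : ℝ) ≤
      Real.exp 16 * ((∏ p ∈ S, (p ^ 2 * p ^ 2) : ℕ) : ℝ) := by
  have h1 : ∑ p ∈ S, ((p : ℝ) ^ 2)⁻¹ ≤ 2 := by
    obtain ⟨M, hM⟩ := S.exists_nat_subset_range
    calc ∑ p ∈ S, ((p : ℝ) ^ 2)⁻¹ ≤ ∑ p ∈ Finset.Ioo 0 M, ((p : ℝ) ^ 2)⁻¹ :=
          Finset.sum_le_sum_of_subset_of_nonneg (fun p hp => by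
            have := hM hp
            have := hS p hp
            simp at *; omega) (fun _ _ _ => by positivity)
      _ ≤ 2 := by simpa using sum_Ioo_inv_sq_le (α := ℝ) 0 M
  calc ((∏ p ∈ S, (p ^ 2 * (p ^ 2 + 8)) : ℕ) : ℝ)
      ≤ ∏ p ∈ S, (Real.exp (8 * ((p : ℝ) ^ 2)⁻¹) * ((p : ℝ) ^ 2 * (p : ℝ) ^ 2)) := by
        push_cast
        refine Finset.prod_le_prod (fun _ _ => by positivity) fun p hp => ?_
        have hp0 : (p : ℝ) ≠ 0 := by exact_mod_cast hS p hp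
        have := Real.add_one_le_exp (8 * ((p : ℝ) ^ 2)⁻¹)
        calc (p : ℝ) ^ 2 * ((p : ℝ) ^ 2 + 8) =
            (8 * ((p : ℝ) ^ 2)⁻¹ + 1) * ((p : ℝ) ^ 2 * (p : ℝ) ^ 2) := by field_simp; ring
          _ ≤ _ := by gcongr
    _ ≤ _ := by
        rw [Finset.prod_mul_distrib, ← Real.exp_sum, ← Finset.mul_sum]
        push_cast
        gcongr
        linarith

theorem cost_piKron_Fz {ι : Type} [Fintype ι] [DecidableEq ι] (q : ι → ℕ)
    [∀ i, NeZero (q i * q i)] (T : ℕ) (hq : ∀ i, 4 * q i ≤ 2 ^ T) {c : ℕ} (hc : Cost (Ck ι) c) :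
    Cost (piKron fun i => Fz (q i * q i))
      (2 * (96 * (T + 3) * ((∏ i, q i * (q i + 8)) / 2 ^ Fintype.card ι * c) +
        (96 * (T + 3) + 1) * ∏ i, q i * (q i + 8)) + ∏ i, q i * q i) := by
  have hq0 : ∀ i, q i ≠ 0 := fun i h => NeZero.ne (q i * q i) (by rw [h, mul_zero])
  have hg : ∀ i, Good (dftMatrix (q i) ⊗ₖ (1 : Matrix (Fin (q i)) (Fin (q i)) ℂ))
      (q i * (q i + 8)) (96 * (T + 3)) := fun i => by
    have h1 := Nat.pow_log_le_self 2 (x := 4 * q i) (by have := hq0 i; omega)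
    have h2 := Nat.lt_pow_succ_log_self (b := 2) (by norm_num) (4 * q i)
    refine good_dft (q i) (Nat.log 2 (4 * q i)) T (hq0 i) (by rw [pow_succ] at h2; omega) h1 ?_
    exact (Nat.pow_le_pow_iff_right (by norm_num)).1 (h1.trans (hq i))
  choose e he using fun i => Fz_eq_dft (q i * q i)
  choose e1 e2 tw hct using fun i => cooley_tukey (q i) (q i)
  have : (fun i => Fz (q i * q i)) = fun i =>
      (dftMatrix (q i) ⊗ₖ (1 : Matrix (Fin (q i)) (Fin (q i)) ℂ)).submatrix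
        (fun x => (e1 i (e i x)).swap) Prod.swap * diagonal (tw i) *
      (dftMatrix (q i) ⊗ₖ (1 : Matrix (Fin (q i)) (Fin (q i)) ℂ)).submatrix id
        (fun x => e2 i (e i x)) := by
    funext i
    rw [he, hct]
    ext x y
    simp only [submatrix_apply, Matrix.mul_apply, kroneckerMap_apply, id, Prod.fst_swap,
      Prod.snd_swap, mul_comm (dftMatrix (q i) _ _) ((1 : Matrix (Fin (q i)) (Fin (q i)) ℂ) _ _)]
    rfl
  rw [this, piKron_mul, piKron_mul, piKron_diagonal]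
  refine (((Good.cost (fun i => (hg i).submatrix _ _ Prod.swap_injective) hc).mul
    (Cost.diagonal _)).mul (Good.cost (fun i => (hg i).submatrix _ _
      ((e2 i).injective.comp (e i).injective)) hc)).mono (le_of_eq ?_)
  simp only [Fintype.card_pi, Fintype.card_prod, Fintype.card_fin]
  ring

theorem cost_dft (n : ℕ) (S : Finset ℕ) (a j : ℕ)
    (hS : ∀ p ∈ S, p.Prime ∧ p ≠ 2 ∧ p ≤ 2 ^ j)
    (hN : 2 * n ≤ 2 ^ a * ∏ p ∈ S, (p ^ 2 * p ^ 2)) {c : ℕ} (hc : Cost (Ck (Fin S.card)) c) :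
    Cost (dftMatrix n) (2 * n + 2 ^ a * ∏ p ∈ S, (p ^ 2 * p ^ 2) + 2 * (
      (∏ p ∈ S, (p ^ 2 * p ^ 2)) * ((5 * a + 1) * 2 ^ a) + 2 ^ a *
      (2 * (96 * (2 * j + 5) * ((∏ p ∈ S, p ^ 2 * (p ^ 2 + 8)) / 2 ^ S.card * c) +
        (96 * (2 * j + 5) + 1) * ∏ p ∈ S, p ^ 2 * (p ^ 2 + 8)) + ∏ p ∈ S, p ^ 2 * p ^ 2))) := by
  have inst : ∀ p : S, NeZero ((p : ℕ) ^ 2 * (p : ℕ) ^ 2) := fun p =>
    ⟨by have := (hS p.1 p.2).1.pos; positivity⟩
  have h1 := cost_piKron_Fz (ι := S) (fun p => (p : ℕ) ^ 2) (2 * j + 2) (fun p => by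
    have := Nat.pow_le_pow_left (hS p.1 p.2).2.2 2
    rw [← pow_mul, mul_comm j] at this
    rw [pow_add]; omega) (Ck_cost_equiv (Fintype.equivFinOfCardEq (Fintype.card_coe S)) hc)
  rw [Finset.prod_coe_sort S (fun p => p ^ 2 * (p ^ 2 + 8)),
    Finset.prod_coe_sort S (fun p => p ^ 2 * p ^ 2), Fintype.card_coe] at h1
  let B := ∀ p : S, ZMod ((p : ℕ) ^ 2 * (p : ℕ) ^ 2)
  have hB : Fintype.card B = ∏ p ∈ S, (p ^ 2 * p ^ 2) := by
    simp only [B, Fintype.card_pi, ZMod.card]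
    exact Finset.prod_coe_sort S (fun p => p ^ 2 * p ^ 2)
  let F : Matrix (ZMod (2 ^ a) × B) (ZMod (2 ^ a) × B) ℂ :=
    Fz (2 ^ a) ⊗ₖ piKron fun p : S => Fz ((p : ℕ) ^ 2 * (p : ℕ) ^ 2)
  have hF := ((lay_Fz_pow a).cost.kron_one (ρ := B)).mul (h1.one_kron (ρ := ZMod (2 ^ a)))
  rw [← mul_kronecker_mul, Matrix.mul_one, Matrix.one_mul, hB, ZMod.card] at hF
  have hφ : ∀ t : ℤ, |t| < 2 * n → Int.castAddHom (ZMod (2 ^ a) × B) t = 0 → t = 0 := by
    intro t ht h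
    have e1 : ((2 ^ a : ℕ) : ℤ) ∣ t :=
      (ZMod.intCast_zmod_eq_zero_iff_dvd t _).1 (congrArg Prod.fst h)
    have e2 : ∀ p ∈ S, ((p ^ 2 * p ^ 2 : ℕ) : ℤ) ∣ t := fun p hp =>
      (ZMod.intCast_zmod_eq_zero_iff_dvd t _).1 (congrFun (congrArg Prod.snd h) ⟨p, hp⟩)
    have e3 : (∏ p ∈ S, ((p ^ 2 * p ^ 2 : ℕ) : ℤ)) ∣ t := by
      refine Finset.prod_dvd_of_coprime (fun p hp r hr hpr => ?_) e2
      simp only [Function.onFun]
      rw [Nat.isCoprime_iff_coprime, ← pow_add, ← pow_add]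
      exact Nat.Coprime.pow _ _ ((Nat.coprime_primes (hS p hp).1 (hS r hr).1).2 hpr)
    rw [← Nat.cast_prod] at e3
    have e4 : ((2 ^ a * ∏ p ∈ S, (p ^ 2 * p ^ 2) : ℕ) : ℤ) ∣ t := by
      rw [Nat.cast_mul]
      refine IsCoprime.mul_dvd ?_ e1 e3
      rw [Nat.isCoprime_iff_coprime]
      refine Nat.Coprime.pow_left _ (Nat.Coprime.prod_right fun p hp => ?_)
      rw [← pow_add]
      exact Nat.Coprime.pow_right _
        ((Nat.coprime_primes Nat.prime_two (hS p hp).1).2 (hS p hp).2.1.symm)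
    refine Int.eq_zero_of_abs_lt_dvd e4 ?_
    have : ((2 * n : ℕ) : ℤ) ≤ ((2 ^ a * ∏ p ∈ S, (p ^ 2 * p ^ 2) : ℕ) : ℤ) := by exact_mod_cast hN
    rw [Nat.cast_mul] at this
    exact ht.trans_le this
  obtain ⟨d, w, hw⟩ := bluestein F
    ((negM (2 ^ a) ((2 ^ a : ℕ) : ℂ)⁻¹ * Fz (2 ^ a)) ⊗ₖ piKron fun p : S =>
      negM _ (((p : ℕ) ^ 2 * (p : ℕ) ^ 2 : ℕ) : ℂ)⁻¹ * Fz ((p : ℕ) ^ 2 * (p : ℕ) ^ 2))
    (fun x y z => by
      simp only [F, kroneckerMap_apply, piKron_apply, Prod.fst_add, Prod.snd_add, Pi.add_apply,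
        B, Fz_add, Finset.prod_mul_distrib]
      ring)
    (fun x y => by
      simp only [F, kroneckerMap_apply, piKron_apply]
      rw [Fz_symm]
      congr 1
      exact Finset.prod_congr rfl fun p _ => Fz_symm _ _ _)
    (by
      simp only [F]
      rw [← mul_kronecker_mul, ← piKron_mul]
      simp only [Fz_inv', piKron_one, one_kronecker_one]) _ n hφ
  have hinj : Function.Injective fun k : Fin n =>
      -Int.castAddHom (ZMod (2 ^ a) × B) ((k : ℕ) : ℤ) := by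
    intro j j' h
    have := hφ ((j : ℕ) - (j' : ℕ)) (by
      have := j.2; have := j'.2
      rw [abs_lt]; constructor <;> omega) (by rw [map_sub]; exact sub_eq_zero.2 (neg_injective h))
    exact Fin.ext (by omega)
  have h2 := ((Cost.diagonal fun k : Fin n => w k).mul (((hF.mul (Cost.diagonal d)).mul hF).submatrix
    (fun k : Fin n => Int.castAddHom (ZMod (2 ^ a) × B) ((k : ℕ) : ℤ)) _ hinj)).mul
    (Cost.diagonal fun k : Fin n => w k)
  have h3 : dftMatrix n = (diagonal fun k : Fin n => w k) * (F * diagonal d * F).submatrix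
      (fun k : Fin n => Int.castAddHom (ZMod (2 ^ a) × B) ((k : ℕ) : ℤ))
      (fun k : Fin n => -Int.castAddHom (ZMod (2 ^ a) × B) ((k : ℕ) : ℤ)) *
      diagonal fun k : Fin n => w k := by
    ext j k
    rw [mul_diagonal, diagonal_mul, submatrix_apply, dft_apply, hw _ _ j.2 k.2]
  rw [h3]
  refine h2.mono (le_of_eq ?_)
  rw [Fintype.card_prod, hB, ZMod.card, Fintype.card_fin]
  ring

theorem natlog_le (m : ℕ) (hm : m ≠ 0) : (Nat.log 2 m : ℝ) ≤ 2 * Real.log m := by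
  have h1 : ((2 ^ Nat.log 2 m : ℕ) : ℝ) ≤ m := by exact_mod_cast Nat.pow_log_le_self 2 hm
  have h2 := Real.log_le_log (by positivity) h1
  rw [Nat.cast_pow, Real.log_pow] at h2
  have h3 := Real.log_two_gt_d9
  have h4 : (0 : ℝ) ≤ Nat.log 2 m := by positivity
  push_cast at h2
  nlinarith

theorem final : ∃ C : ℝ, ∃ N₀ : ℕ, ∀ n ≥ N₀, ∃ c : ℕ, Cost (dftMatrix n) c ∧
    (c : ℝ) ≤ C * n * Real.log n ^ savingExponent *
      Real.log (Real.log n) ^ (4 - savingExponent) := by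
  obtain ⟨A, hA, hK⟩ := Ck_bound
  have hθ0 := theta_nonneg
  have hθ1 := theta_le_one
  set θ := savingExponent
  set E := Real.exp 16 with hE
  have hE0 : 0 < E := Real.exp_pos _
  have hlim : ∀ᶠ n : ℕ in Filter.atTop, 1 ≤ Real.log (Real.log n) ∧ 1 ≤ Real.log n :=
    ((Real.tendsto_log_atTop.comp (Real.tendsto_log_atTop.comp
      tendsto_natCast_atTop_atTop)).eventually_ge_atTop 1).and
    ((Real.tendsto_log_atTop.comp tendsto_natCast_atTop_atTop).eventually_ge_atTop 1)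
  obtain ⟨N₀, hN₀⟩ := Filter.eventually_atTop.1 hlim
  refine ⟨6 + 8 * (600 + (2 * (6000 * (E * (3 * A)) + 6000 * E) + 1)), N₀, fun n hn => ?_⟩
  obtain ⟨hY, hX⟩ := hN₀ n hn
  have hn0 : n ≠ 0 := by rintro rfl; simp at hX; linarith
  obtain ⟨S, a, j, hS, h1, h2, ha, hd, hj⟩ := exists_moduli n hn0
  obtain ⟨c, hc, hcb⟩ := hK S.card
  refine ⟨_, cost_dft n S a j hS h1 hc, ?_⟩
  have hW := pad_bound S fun p hp => (hS p hp).1.ne_zero
  have hl := natlog_le n hn0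
  have hd' : (S.card : ℝ) + 1 ≤ 3 * Real.log n := by
    have : (S.card : ℝ) ≤ Nat.log 2 n := by exact_mod_cast hd
    linarith
  have hj' : (j : ℝ) ≤ 26 * Real.log (Real.log n) := by
    have e1 := natlog_le (Nat.log 2 n + 3) (by omega)
    have e2 : Real.log ((Nat.log 2 n + 3 : ℕ) : ℝ) ≤ Real.log (5 * Real.log n) :=
      Real.log_le_log (by positivity) (by push_cast; linarith)
    rw [Real.log_mul (by norm_num) (by linarith)] at e2
    have e3 : Real.log 5 ≤ 5 - 1 := Real.log_le_sub_one_of_pos (by norm_num)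
    rw [hj]
    push_cast at e1 e2 ⊢
    linarith
  have ha' : (a : ℝ) ≤ 4 * j + 1 := by exact_mod_cast ha
  have hX1 : 1 ≤ Real.log n ^ θ := Real.one_le_rpow hX hθ0
  have hdθ : ((S.card : ℝ) + 1) ^ θ ≤ 3 * Real.log n ^ θ := by
    calc ((S.card : ℝ) + 1) ^ θ ≤ (3 * Real.log n) ^ θ :=
          Real.rpow_le_rpow (by positivity) hd' hθ0
      _ = 3 ^ θ * Real.log n ^ θ := Real.mul_rpow (by norm_num) (by linarith)
      _ ≤ 3 * Real.log n ^ θ := by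
          gcongr
          calc (3 : ℝ) ^ θ ≤ 3 ^ (1 : ℝ) := Real.rpow_le_rpow_of_exponent_le (by norm_num) hθ1
            _ = 3 := Real.rpow_one _
  have hY' : Real.log (Real.log n) ≤ Real.log (Real.log n) ^ (4 - θ) := by
    calc Real.log (Real.log n) = Real.log (Real.log n) ^ (1 : ℝ) := (Real.rpow_one _).symm
      _ ≤ _ := Real.rpow_le_rpow_of_exponent_le hY (by linarith)
  have hdiv : (((∏ p ∈ S, p ^ 2 * (p ^ 2 + 8)) / 2 ^ S.card * c : ℕ) : ℝ) ≤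
      ((∏ p ∈ S, p ^ 2 * (p ^ 2 + 8) : ℕ) : ℝ) * (A * (3 * Real.log n ^ θ)) := by
    have e1 : (((∏ p ∈ S, p ^ 2 * (p ^ 2 + 8)) / 2 ^ S.card : ℕ) : ℝ) * 2 ^ S.card ≤
        ((∏ p ∈ S, p ^ 2 * (p ^ 2 + 8) : ℕ) : ℝ) := by
      exact_mod_cast Nat.div_mul_le_self _ _
    rw [Nat.cast_mul]
    calc _ ≤ (((∏ p ∈ S, p ^ 2 * (p ^ 2 + 8)) / 2 ^ S.card : ℕ) : ℝ) *
          (A * 2 ^ S.card * (3 * Real.log n ^ θ)) := by
          gcongr
          exact hcb.trans (by gcongr)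
      _ = (((∏ p ∈ S, p ^ 2 * (p ^ 2 + 8)) / 2 ^ S.card : ℕ) : ℝ) * 2 ^ S.card *
          (A * (3 * Real.log n ^ θ)) := by ring
      _ ≤ _ := by gcongr
  have h2' : (2 : ℝ) ^ a * ((∏ p ∈ S, (p ^ 2 * p ^ 2) : ℕ) : ℝ) ≤ 4 * n := by exact_mod_cast h2
  generalize (∏ p ∈ S, p ^ 2 * (p ^ 2 + 8)) / 2 ^ S.card * c = D at *
  generalize (∏ p ∈ S, p ^ 2 * (p ^ 2 + 8)) = W at *
  generalize (∏ p ∈ S, p ^ 2 * p ^ 2) = Q at *
  generalize Real.log (Real.log n) ^ (4 - θ) = Y' at *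
  generalize Real.log (Real.log n) = Y at *
  generalize Real.log n ^ θ = X at *
  push_cast
  have hXY : 1 ≤ X * Y' := by nlinarith
  have hY1 : Y' ≤ X * Y' := by nlinarith
  have hQ : (0 : ℝ) ≤ Q := by positivity
  have hn' : (0 : ℝ) ≤ n := by positivity
  have t1 : (5 * (a : ℝ) + 1) ≤ 600 * (X * Y') := by linarith
  have t2 : 96 * (2 * (j : ℝ) + 5) + 1 ≤ 6000 * Y' := by linarith
  have t3 : (D : ℝ) ≤ E * Q * (A * (3 * X)) := hdiv.trans (by gcongr)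
  have t4 : 96 * (2 * (j : ℝ) + 5) * D ≤ 6000 * Y' * (E * Q * (A * (3 * X))) :=
    mul_le_mul (by linarith) t3 (by positivity) (by linarith)
  have t5 : (96 * (2 * (j : ℝ) + 5) + 1) * W ≤ 6000 * (X * Y') * (E * Q) := by
    gcongr; linarith
  have t6 : (Q : ℝ) ≤ X * Y' * Q := by nlinarith
  calc _ ≤ 2 * (n : ℝ) + 4 * n + 2 * (Q * (600 * (X * Y') * 2 ^ a) + 2 ^ a *
        (2 * (6000 * Y' * (E * Q * (A * (3 * X))) + 6000 * (X * Y') * (E * Q)) + X * Y' * Q)) := by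
        gcongr
    _ = 6 * n + 2 * (2 ^ a * Q) * (600 + (2 * (6000 * (E * (3 * A)) + 6000 * E) + 1)) *
        (X * Y') := by ring
    _ ≤ 6 * n * (X * Y') + 2 * (4 * n) * (600 + (2 * (6000 * (E * (3 * A)) + 6000 * E) + 1)) *
        (X * Y') := by
        have : 6 * (n : ℝ) ≤ 6 * n * (X * Y') := by nlinarith
        gcongr
    _ = _ := by ring

end Crest.Agent.R324
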