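import Crest.Agent.R324.Cube

/-! In-place layered circuits and the calculus of shears. -/

set_option autoImplicit false
set_option linter.unusedSectionVars false
open Matrix Complex
open scoped Kronecker

namespace Crest.Agent.R324

def Mono {α : Type} [DecidableEq α] (U : Matrix α α ℂ) : Prop :=
  ∃ (f : α → α) (d : α → ℂ), U = Matrix.of fun i j => if j = f i then d i else 0

inductive Lay {α : Type} [Fintype α] [DecidableEq α] : ℕ → Matrix α α ℂ → Prop
  | mono {U : Matrix α α ℂ} (h : Mono U) : Lay 0 U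
  | step {t : ℕ} {U B M : Matrix α α ℂ} (hU : Lay t U) (hB : Bfly B) (hM : Mono M) :
      Lay (t + 1) (M * B * U)

section
variable {α β : Type} [Fintype α] [DecidableEq α] [Fintype β] [DecidableEq β]

theorem Mono.mul {U V : Matrix α α ℂ} (hU : Mono U) (hV : Mono V) : Mono (U * V) := by
  obtain ⟨f, d, rfl⟩ := hU
  obtain ⟨f', d', rfl⟩ := hV
  refine ⟨fun i => f' (f i), fun i => d i * d' (f i), ?_⟩
  ext i j
  rw [Matrix.mul_apply, Finset.sum_eq_single (f i)]
  · simp
  · intro b _ hb; simp [hb]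
  · simp

theorem Mono.diagonal (d : α → ℂ) : Mono (diagonal d) :=
  ⟨id, d, by ext i j; simp [diagonal_apply, eq_comm]⟩

theorem Mono.one : Mono (1 : Matrix α α ℂ) := Mono.diagonal _

theorem Mono.submatrix {U : Matrix α α ℂ} (hU : Mono U) (e e' : β ≃ α) :
    Mono (U.submatrix e e') := by
  obtain ⟨f, d, rfl⟩ := hU
  refine ⟨fun i => e'.symm (f (e i)), fun i => d (e i), ?_⟩
  ext i j
  simp [Equiv.eq_symm_apply]

theorem Mono.kron_one {U : Matrix α α ℂ} (hU : Mono U) : Mono (U ⊗ₖ (1 : Matrix β β ℂ)) := by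
  obtain ⟨f, d, rfl⟩ := hU
  refine ⟨fun p => (f p.1, p.2), fun p => d p.1, ?_⟩
  ext ⟨i, r⟩ ⟨j, s⟩
  by_cases h : r = s
  · simp [h]
  · simp [h, Ne.symm h]

theorem Mono.fromBlocks {U : Matrix α α ℂ} {V : Matrix β β ℂ} (hU : Mono U) (hV : Mono V) :
    Mono (fromBlocks U 0 0 V) := by
  obtain ⟨f, d, rfl⟩ := hU
  obtain ⟨f', d', rfl⟩ := hV
  refine ⟨Sum.map f f', Sum.elim d d', ?_⟩
  ext (i | i) (j | j) <;> simp

theorem Mono.fromBlocks' {U V : Matrix α α ℂ} (hU : Mono U) (hV : Mono V) :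
    Mono (Matrix.fromBlocks 0 U V 0) := by
  obtain ⟨f, d, rfl⟩ := hU
  obtain ⟨f', d', rfl⟩ := hV
  refine ⟨Sum.elim (fun i => .inr (f i)) (fun i => .inl (f' i)), Sum.elim d d', ?_⟩
  ext (i | i) (j | j) <;> simp

theorem Bfly.submatrix {B : Matrix α α ℂ} (hB : Bfly B) (e : β ≃ α) : Bfly (B.submatrix e e) := by
  obtain ⟨σ, h1, h2, h3⟩ := hB
  refine ⟨fun x => e.symm (σ (e x)), fun x => by simp [h1], fun x hx => h2 (e x) ?_, fun x y => ?_⟩
  · rw [← hx]; simp [h1, hx]
    simpa [Equiv.symm_apply_eq] using hx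
  · simp [h3, Equiv.eq_symm_apply]

theorem Bfly.kron_one {B : Matrix α α ℂ} (hB : Bfly B) : Bfly (B ⊗ₖ (1 : Matrix β β ℂ)) := by
  obtain ⟨σ, h1, h2, h3⟩ := hB
  refine ⟨fun p => (σ p.1, p.2), fun x => by simp [h1], fun x hx => h2 x.1 (congrArg Prod.fst hx),
    ?_⟩
  rintro ⟨i, r⟩ ⟨j, s⟩
  by_cases h : r = s
  · simp [h, h3]
  · simp [h, Ne.symm h]

theorem Bfly.fromBlocks {B : Matrix α α ℂ} {B' : Matrix β β ℂ} (hB : Bfly B) (hB' : Bfly B') :
    Bfly (fromBlocks B 0 0 B') := by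
  obtain ⟨σ, h1, h2, h3⟩ := hB
  obtain ⟨σ', h1', h2', h3'⟩ := hB'
  refine ⟨Sum.map σ σ', ?_, ?_, ?_⟩
  · rintro (x | x) <;> simp [h1, h1']
  · rintro (x | x) <;> simp [h2, h2']
  · rintro (x | x) (y | y) <;> simp [h3, h3']

namespace Lay

theorem zero_inv {U : Matrix α α ℂ} (h : Lay 0 U) : Mono U := by
  cases h with
  | mono h => exact h

theorem succ_inv {t : ℕ} {U : Matrix α α ℂ} (h : Lay (t + 1) U) :
    ∃ U' B M, Lay t U' ∧ Bfly B ∧ Mono M ∧ U = M * B * U' := by
  cases h with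
  | step hU hB hM => exact ⟨_, _, _, hU, hB, hM, rfl⟩

theorem of_eq {t t' : ℕ} {U U' : Matrix α α ℂ} (h : Lay t U) (e : U' = U) (e' : t' = t) :
    Lay t' U' := e ▸ e' ▸ h

theorem mono_mul {t : ℕ} {M U : Matrix α α ℂ} (hM : Mono M) (h : Lay t U) : Lay t (M * U) := by
  cases h with
  | mono h => exact mono (hM.mul h)
  | step hU hB hM' =>
    exact (step hU hB (hM.mul hM')).of_eq (by simp only [Matrix.mul_assoc]) rfl

theorem mul {t t' : ℕ} {U V : Matrix α α ℂ} (h : Lay t U) (h' : Lay t' V) :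
    Lay (t + t') (U * V) := by
  induction h with
  | mono h => exact (mono_mul h h').of_eq rfl (by omega)
  | step hU hB hM ih => exact (step ih hB hM).of_eq (by simp only [Matrix.mul_assoc]) (by omega)

theorem bfly {B : Matrix α α ℂ} (hB : Bfly B) : Lay 1 B :=
  (step (mono Mono.one) hB Mono.one).of_eq (by simp) rfl

theorem submatrix {t : ℕ} {U : Matrix α α ℂ} (h : Lay t U) (e' : β ≃ α) :
    ∀ e : β ≃ α, Lay t (U.submatrix e e') := by
  induction h with
  | mono h => exact fun e => mono (h.submatrix e e')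
  | step hU hB hM ih =>
    intro e
    refine (step (ih e) (hB.submatrix e) (hM.submatrix e e)).of_eq ?_ rfl
    rw [submatrix_mul_equiv, submatrix_mul_equiv]

theorem kron_one {t : ℕ} {U : Matrix α α ℂ} (h : Lay t U) : Lay t (U ⊗ₖ (1 : Matrix β β ℂ)) := by
  induction h with
  | mono h => exact mono h.kron_one
  | step hU hB hM ih =>
    refine (step ih hB.kron_one hM.kron_one).of_eq ?_ rfl
    rw [← mul_kronecker_mul, ← mul_kronecker_mul]; simp

theorem one_kron {t : ℕ} {U : Matrix α α ℂ} (h : Lay t U) : Lay t ((1 : Matrix β β ℂ) ⊗ₖ U) := by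
  refine ((h.kron_one (β := β)).submatrix (Equiv.prodComm β α) (Equiv.prodComm β α)).of_eq ?_ rfl
  ext ⟨i, r⟩ ⟨j, s⟩
  simp [mul_comm]

theorem fromBlocks {t : ℕ} {U : Matrix α α ℂ} (h : Lay t U) :
    ∀ {V : Matrix β β ℂ}, Lay t V → Lay t (fromBlocks U 0 0 V) := by
  induction h with
  | mono h => exact fun h' => mono (h.fromBlocks h'.zero_inv)
  | step hU hB hM ih =>
    intro V h'
    obtain ⟨U', B', M', h1, h2, h3, rfl⟩ := h'.succ_inv
    refine (step (ih h1) (hB.fromBlocks h2) (hM.fromBlocks h3)).of_eq ?_ rfl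
    simp [fromBlocks_multiply]

theorem one_even (σ : α → α) (h1 : ∀ x, σ (σ x) = x) (h2 : ∀ x, σ x ≠ x) (i : ℕ) :
    Lay (2 * i) (1 : Matrix α α ℂ) := by
  induction i with
  | zero => exact mono Mono.one
  | succ i ih =>
    let P : Matrix α α ℂ := Matrix.of fun x y => if y = σ x then 1 else 0
    have hP : Mono P := ⟨σ, fun _ => 1, rfl⟩
    have hPP : P * P = 1 := by
      ext x y
      rw [Matrix.mul_apply, Finset.sum_eq_single (σ x)]
      · simp [P, h1, one_apply, eq_comm]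
      · intro b _ hb; simp [P, hb]
      · simp
    have hB : Bfly (ca • (1 : Matrix α α ℂ) + cb • P) :=
      ⟨σ, h1, h2, fun x y => by simp [P, one_apply, eq_comm]⟩
    refine ((mono_mul hP ((bfly hB).mul (bfly hB))).mul ih).of_eq ?_ (by omega)
    have e1 : ca * ca + cb * cb = 0 := by
      unfold ca cb; linear_combination (1 / 2 : ℂ) * I_mul_I
    have e2 : ca * cb + cb * ca = 1 := by
      unfold ca cb; linear_combination (-1 / 2 : ℂ) * I_mul_I
    have : (ca • (1 : Matrix α α ℂ) + cb • P) * (ca • (1 : Matrix α α ℂ) + cb • P) =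
        (ca * ca + cb * cb) • (1 : Matrix α α ℂ) + (ca * cb + cb * ca) • P := by
      simp only [Matrix.mul_add, Matrix.add_mul, Matrix.smul_mul, Matrix.mul_smul, Matrix.one_mul,
        Matrix.mul_one, hPP]
      module
    rw [this, e1, e2]
    simp [hPP]

theorem cost_piKron {ι : Type} [Fintype ι] [DecidableEq ι] {γ : ι → Type}
    [∀ i, Fintype (γ i)] [∀ i, DecidableEq (γ i)] {c : ℕ} (hc : Cost (Ck ι) c) (t : ℕ) :
    ∀ U : ∀ i, Matrix (γ i) (γ i) ℂ, (∀ i, Lay t (U i)) →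
      Cost (piKron U) (t * ((∏ i, Fintype.card (γ i)) / 2 ^ Fintype.card ι * c) +
        (t + 1) * ∏ i, Fintype.card (γ i)) := by
  have hmono : ∀ U : ∀ i, Matrix (γ i) (γ i) ℂ, (∀ i, Mono (U i)) →
      Cost (piKron U) (∏ i, Fintype.card (γ i)) := by
    intro U hU
    choose f d h using hU
    have : U = fun i => Matrix.of fun a b => if b = f i a then d i a else 0 := funext h
    rw [this, piKron_mono, ← Fintype.card_pi]
    exact Cost.mono_mat _ _
  induction t with
  | zero => intro U hU; simpa using hmono U fun i => (hU i).zero_inv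
  | succ t ih =>
    intro U hU
    choose U' B M h1 h2 h3 h4 using fun i => (hU i).succ_inv
    have : U = fun i => M i * B i * U' i := funext h4
    rw [this, piKron_mul, piKron_mul]
    refine (((hmono M h3).mul (cost_piKron_bfly B h2 hc)).mul (ih U' h1)).mono (le_of_eq ?_)
    ring

theorem cost {t : ℕ} {U : Matrix α α ℂ} (h : Lay t U) : Cost U ((5 * t + 1) * Fintype.card α) := by
  have h1 := (cost_piKron (γ := fun _ : Unit => α) (Cost.trivial (Ck Unit)) t (fun _ => U)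
    (fun _ => h)).submatrix (fun (x : α) (_ : Unit) => x) (fun (x : α) (_ : Unit) => x)
    (fun x y hxy => congrFun hxy ())
  have h2 : (piKron (fun _ : Unit => U)).submatrix (fun (x : α) (_ : Unit) => x)
      (fun (x : α) (_ : Unit) => x) = U := by
    ext x y; simp [piKron_apply]
  rw [h2] at h1
  refine h1.mono ?_
  simp
  have := Nat.div_mul_le_self (Fintype.card α) 2
  nlinarith

end Lay

/-! ### shears -/

def ShL (t : ℕ) (Z : Matrix α α ℂ) : Prop := Lay t (fromBlocks 1 0 Z 1)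

noncomputable def blk (α : Type) [DecidableEq α] (p q r s : ℂ) : Matrix (α ⊕ α) (α ⊕ α) ℂ :=
  fromBlocks (p • 1) (q • 1) (r • 1) (s • 1)

theorem blk_mul (p q r s p' q' r' s' : ℂ) : blk α p q r s * blk α p' q' r' s' =
    blk α (p * p' + q * r') (p * q' + q * s') (r * p' + s * r') (r * q' + s * s') := by
  simp [blk, fromBlocks_multiply, smul_smul, add_smul, mul_comm]

theorem blk_mono (p s : ℂ) : Mono (blk α p 0 0 s) := by
  have := (Mono.diagonal (fun _ : α => p)).fromBlocks (Mono.diagonal (fun _ : α => s))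
  convert this using 1
  simp [blk, smul_one_eq_diagonal]

theorem blk_bfly : Bfly (blk α ca cb cb ca) := by
  refine ⟨Sum.swap, by simp, by rintro (x | x) <;> simp, ?_⟩
  rintro (x | x) (y | y) <;> simp [blk, one_apply, eq_comm]

theorem ShL.one : ShL 3 (1 : Matrix α α ℂ) := by
  have := Lay.step (Lay.step (Lay.step (Lay.mono (blk_mono (α := α) (1 / 5) (-I / 3)))
    blk_bfly (blk_mono (-ca / 2) ca)) blk_bfly (blk_mono 3 (-1))) blk_bfly (blk_mono 5 (4 * I))
  refine this.of_eq ?_ rfl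
  simp only [blk_mul]
  have : fromBlocks (1 : Matrix α α ℂ) 0 1 1 = blk α 1 0 1 1 := by simp [blk]
  rw [this]
  congr 1 <;> simp [ca, cb, Complex.ext_iff] <;> norm_num

theorem ShL.add {t t' : ℕ} {Z Z' : Matrix α α ℂ} (h : ShL t Z) (h' : ShL t' Z') :
    ShL (t + t') (Z + Z') :=
  (Lay.mul h h').of_eq (by simp [fromBlocks_multiply]) rfl

theorem ShL.of_eq {t t' : ℕ} {U U' : Matrix α α ℂ} (h : ShL t U) (e : U' = U) (e' : t' = t) :
    ShL t' U' := e ▸ e' ▸ h

theorem ShL.conj {t u : ℕ} {Z A A' B B' : Matrix α α ℂ} (h : ShL t Z) (hA : Lay u A)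
    (hA' : Lay u A') (hB : Lay u B) (hB' : Lay u B') (e1 : A' * A = 1) (e2 : B * B' = 1) :
    ShL (u + t + u) (B * Z * A) :=
  (((hA'.fromBlocks hB).mul h).mul (hA.fromBlocks hB')).of_eq
    (by simp [fromBlocks_multiply, e1, e2]) rfl

theorem ShL.diag_conj {t : ℕ} {Z : Matrix α α ℂ} (h : ShL t Z) (d d' : α → ℂ)
    (hd : ∀ i, d i ≠ 0) (hd' : ∀ i, d' i ≠ 0) : ShL t (diagonal d * Z * diagonal d') :=
  (h.conj (Lay.mono (Mono.diagonal d')) (Lay.mono (Mono.diagonal fun i => (d' i)⁻¹))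
    (Lay.mono (Mono.diagonal d)) (Lay.mono (Mono.diagonal fun i => (d i)⁻¹))
    (by simp [diagonal_mul_diagonal, hd']) (by simp [diagonal_mul_diagonal, hd])).of_eq rfl
    (by omega)

theorem exists_split (d : α → ℂ) : ∃ d1 d2 : α → ℂ, (∀ i, d1 i ≠ 0) ∧ (∀ i, d2 i ≠ 0) ∧
    diagonal d = diagonal d1 + diagonal d2 := by
  classical
  refine ⟨fun i => if d i = 1 then 2 else 1, fun i => if d i = 1 then -1 else d i - 1,
    fun i => ?_, fun i => ?_, ?_⟩
  · beta_reduce; split_ifs <;> simp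
  · beta_reduce; split_ifs with h
    · simp
    · exact sub_ne_zero.2 h
  · rw [diagonal_add]
    congr 1
    funext i
    split_ifs with h
    · rw [h]; norm_num
    · ring

theorem ShL.diag_left {t : ℕ} {Z : Matrix α α ℂ} (h : ShL t Z) (d : α → ℂ) :
    ShL (2 * t) (diagonal d * Z) := by
  obtain ⟨d1, d2, h1, h2, e⟩ := exists_split d
  refine ((h.diag_conj d1 (fun _ => 1) h1 (by simp)).add
    (h.diag_conj d2 (fun _ => 1) h2 (by simp))).of_eq ?_ (by omega)
  rw [e, Matrix.add_mul]; simp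

theorem ShL.diag_right {t : ℕ} {Z : Matrix α α ℂ} (h : ShL t Z) (d : α → ℂ) :
    ShL (2 * t) (Z * diagonal d) := by
  obtain ⟨d1, d2, h1, h2, e⟩ := exists_split d
  refine ((h.diag_conj (fun _ => 1) d1 (by simp) h1).add
    (h.diag_conj (fun _ => 1) d2 (by simp) h2)).of_eq ?_ (by omega)
  rw [e, Matrix.mul_add]; simp

theorem ShL.submatrix {t : ℕ} {Z : Matrix α α ℂ} (h : ShL t Z) (e e' : β ≃ α) :
    ShL t (Z.submatrix e e') := by
  refine (Lay.submatrix h (Equiv.sumCongr e' e) (Equiv.sumCongr e' e)).of_eq ?_ rfl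
  ext (i | i) (j | j) <;> simp [one_apply]

theorem ShL.extend {i : ℕ} {Z : Matrix α α ℂ} (h : ShL (2 * i) Z) :
    ShL (2 * i) (fromBlocks Z 0 0 (0 : Matrix β β ℂ)) := by
  have h1 := Lay.fromBlocks h (Lay.one_even (α := β ⊕ β) Sum.swap (by simp)
    (by rintro (x | x) <;> simp) i)
  refine (h1.submatrix (Equiv.sumSumSumComm α β α β) (Equiv.sumSumSumComm α β α β)).of_eq ?_ rfl
  ext ((i | i) | (i | i)) ((j | j) | (j | j)) <;> simp [one_apply]

theorem ShL.transplant {γ : Type} [Fintype γ] {i : ℕ} {Z : Matrix α α ℂ} (h : ShL (2 * i) Z)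
    (hc : Fintype.card α ≤ Fintype.card β) (f g : γ → α) (hf : Function.Injective f)
    (hg : Function.Injective g) (f' g' : γ → β) (hf' : Function.Injective f')
    (hg' : Function.Injective g') (w w' : γ → ℂ) (Y : Matrix β β ℂ)
    (h1 : ∀ j k, Y (f' j) (g' k) = w j * Z (f j) (g k) * w' k)
    (h2 : ∀ p q, (∀ j, f' j ≠ p) → Y p q = 0) (h3 : ∀ p q, (∀ k, g' k ≠ q) → Y p q = 0) :
    ShL (8 * i) Y := by
  obtain ⟨r, hr⟩ := Nat.exists_eq_add_of_le hc
  have e0 : β ≃ α ⊕ Fin r := Fintype.equivOfCardEq (by simp [hr])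
  obtain ⟨σ, hσ⟩ := Equiv.Perm.exists_extending_pair _ _ hf'
    (e0.symm.injective.comp (Sum.inl_injective.comp hf))
  obtain ⟨τ, hτ⟩ := Equiv.Perm.exists_extending_pair _ _ hg'
    (e0.symm.injective.comp (Sum.inl_injective.comp hg))
  have h4 := (((h.extend (β := Fin r)).submatrix (σ.trans e0) (τ.trans e0)).diag_left
    (Function.extend f' w 0)).diag_right (Function.extend g' w' 0)
  refine h4.of_eq ?_ (by omega)
  ext p q
  rw [mul_diagonal, diagonal_mul]
  by_cases hp : ∃ j, f' j = p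
  · by_cases hq : ∃ k, g' k = q
    · obtain ⟨j, rfl⟩ := hp
      obtain ⟨k, rfl⟩ := hq
      simp [h1, hf'.extend_apply, hg'.extend_apply, hσ, hτ]
    · rw [h3 p q (by simpa using hq), Function.extend_apply' _ _ _ hq]; simp
  · rw [h2 p q (by simpa using hp), Function.extend_apply' _ _ _ hp]; simp

theorem ShL.three {t : ℕ} {A N N' : Matrix α α ℂ} (h : ShL t A) (hN : Mono N) (hN' : Mono N')
    (e1 : N * N' = 1) (e2 : N * A * A = -1) : Lay (3 * t) (fromBlocks A 0 0 A) := by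
  have e1' : N' * N = 1 := mul_eq_one_comm.1 e1
  have e3 : A * (N * A) = -1 := by
    have : (-(N * A)) * A = 1 := by rw [Matrix.neg_mul, e2, neg_neg]
    have := mul_eq_one_comm.1 this
    rw [Matrix.mul_neg] at this
    exact neg_eq_iff_eq_neg.1 this
  have h1 : ShL t (N * A) := (h.conj (Lay.mono Mono.one) (Lay.mono Mono.one) (Lay.mono hN)
    (Lay.mono hN') (by simp) e1).of_eq (by simp) (by omega)
  have h2 : Lay t (fromBlocks 1 (N * A) 0 1) :=
    (Lay.submatrix h1 (Equiv.sumComm α α) (Equiv.sumComm α α)).of_eq (by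
      ext (i | i) (j | j) <;> simp) rfl
  refine (Lay.mono_mul (Mono.one.fromBlocks' hN') ((Lay.mul h h2).mul h)).of_eq ?_ (by omega)
  simp [fromBlocks_multiply, e2, e3, ← Matrix.mul_assoc, e1']

end

end Crest.Agent.R324
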