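import Crest.Agent.R324.Design

/-! The labelled network with dirty ancillas. -/

set_option autoImplicit false
set_option linter.unusedSectionVars false
open Matrix
open scoped Kronecker

namespace Crest.Agent.R324

section AR
variable {G : Type} [Fintype G]

abbrev Arr (G : Type) := Matrix G Z ℂ

def rowsS (S : Set (Arr G)) : Set Val := {v | ∃ p ∈ S, v ∈ rows p}

def AR (S : Set (Arr G)) (c : ℕ) (T : Set (Arr G)) : Prop := Reach (rowsS S) c (rowsS T)

theorem rowsS_mono {S T : Set (Arr G)} (h : S ⊆ T) : rowsS S ⊆ rowsS T :=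
  fun _ ⟨p, hp, hv⟩ => ⟨p, h hp, hv⟩

theorem rowsS_union (S T : Set (Arr G)) : rowsS (S ∪ T) = rowsS S ∪ rowsS T := by
  ext v
  simp only [rowsS, Set.mem_setOf_eq, Set.mem_union]
  constructor
  · rintro ⟨p, hp | hp, hv⟩
    · exact Or.inl ⟨p, hp, hv⟩
    · exact Or.inr ⟨p, hp, hv⟩
  · rintro (⟨p, hp, hv⟩ | ⟨p, hp, hv⟩)
    · exact ⟨p, Or.inl hp, hv⟩
    · exact ⟨p, Or.inr hp, hv⟩

theorem rowsS_single (p : Arr G) : rowsS {p} = rows p := by
  ext v; simp [rowsS]

namespace AR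
variable {S T U : Set (Arr G)} {c c' : ℕ}

theorem base (h : T ⊆ S) : AR S c T :=
  Reach.base ((rowsS_mono h).trans (Set.subset_insert _ _))

theorem mono_cost (h : AR S c T) (hc : c ≤ c') : AR S c' T := Reach.mono_cost h hc

theorem mono_right (h : AR S c T) (hU : U ⊆ T) : AR S c U :=
  Reach.mono_right' h (rowsS_mono hU)

theorem mono_left (h : AR S c T) (hU : S ⊆ U) : AR U c T :=
  Reach.mono_left' h (rowsS_mono hU)

theorem then_set (h : AR S c T) (k : ∀ S', S ⊆ S' → T ⊆ S' → AR S' c' U) : AR S (c + c') U := by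
  have := k (S ∪ T) Set.subset_union_left Set.subset_union_right
  unfold AR at this
  rw [rowsS_union] at this
  exact Reach.trans' h this

theorem union (h : AR S c T) (h' : AR S c' U) : AR S (c + c') (T ∪ U) := by
  unfold AR
  rw [rowsS_union]
  exact Reach.union h h'

theorem iUnion {ι : Type*} [Fintype ι] {T : ι → Set (Arr G)} (h : ∀ i, AR S c (T i)) :
    AR S (Fintype.card ι * c) (⋃ i, T i) := by
  have := Reach.iUnion (c := fun _ => c) h
  simp only [Finset.sum_const, Finset.card_univ, smul_eq_mul] at this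
  refine this.mono_right' ?_
  rintro v ⟨p, hp, hv⟩
  simp only [Set.mem_iUnion] at hp ⊢
  obtain ⟨i, hi⟩ := hp
  exact ⟨i, p, hi, hv⟩

theorem then_fam {ι : Type*} [Fintype ι] (f : ι → Arr G) (h : ∀ i, AR S c {f i})
    (k : ∀ S', S ⊆ S' → (∀ i, f i ∈ S') → AR S' c' U) : AR S (Fintype.card ι * c + c') U :=
  (iUnion h).then_set fun S' h1 h2 => k S' h1 fun i => h2 (by simp)

theorem mem {p : Arr G} (h : p ∈ S) : AR S 0 {p} := base (by simpa using h)

theorem mul {p : Arr G} {A : Matrix G G ℂ} (hA : Cost A c') (h : AR S c {p}) :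
    AR S (c + c') {A * p} := by
  unfold AR at h ⊢
  rw [rowsS_single] at h ⊢
  exact h.trans (hA p)

theorem rowwise {p : Arr G} (h : ∀ g, Reach (rowsS S) c {p g}) :
    AR S (Fintype.card G * c) {p} := by
  have := Reach.iUnion (c := fun _ => c) h
  simp only [Finset.sum_const, Finset.card_univ, smul_eq_mul] at this
  unfold AR
  rw [rowsS_single]
  refine this.mono_right' ?_
  rintro v ⟨g, rfl⟩
  simp

theorem add {p q : Arr G} (h : AR S c {p}) (h' : AR S c' {q}) :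
    AR S (c + c' + Fintype.card G) {p + q} := by
  refine (h.union h').then_set fun S' _ h2 => ?_
  have := rowwise (S := S') (c := 1) (p := p + q) fun g => Reach.gate
    ⟨p g, Or.inr ⟨p, h2 (by simp), mem_rows _ _⟩, q g, Or.inr ⟨q, h2 (by simp), mem_rows _ _⟩,
      Or.inl rfl⟩
  simpa using this

theorem sub {p q : Arr G} (h : AR S c {p}) (h' : AR S c' {q}) :
    AR S (c + c' + Fintype.card G) {p - q} := by
  refine (h.union h').then_set fun S' _ h2 => ?_
  have := rowwise (S := S') (c := 1) (p := p - q) fun g => Reach.gate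
    ⟨p g, Or.inr ⟨p, h2 (by simp), mem_rows _ _⟩, q g, Or.inr ⟨q, h2 (by simp), mem_rows _ _⟩,
      Or.inr (Or.inl rfl)⟩
  simpa using this

theorem lin {ι : Type*} [Fintype ι] (s : Finset ι) (a : ι → ℂ) (q : ι → Arr G)
    (hq : ∀ i ∈ s, q i ∈ S) : AR S (Fintype.card G * (2 * Fintype.card ι)) {∑ i ∈ s, a i • q i} := by
  refine rowwise fun g => ?_
  have := Reach.lin s (S := rowsS S) a (fun i => q i g)
    (fun i hi => Or.inr ⟨q i, hq i hi, mem_rows _ _⟩)
  have e : (∑ i ∈ s, a i • q i) g = ∑ i ∈ s, a i • q i g := by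
    funext z
    simp [Matrix.sum_apply, Finset.sum_apply]
  rw [e]
  exact this.mono_cost (by have := Finset.card_le_univ s; omega)

theorem of_eq {p q : Arr G} (h : AR S c {p}) (e : q = p) : AR S c {q} := e ▸ h

end AR

def Frame {H : Type} (Φ : Matrix H H ℤ → Matrix G G ℂ) (u : ℕ) : Prop :=
  ∀ U U' k, Sq k (U' - U) → ∃ A, Cost A (k * u) ∧ Φ U' = A * Φ U

theorem Frame.move {H : Type} {Φ : Matrix H H ℤ → Matrix G G ℂ} {u : ℕ} (hΦ : Frame Φ u)
    {S : Set (Arr G)} {c k : ℕ} {U U' : Matrix H H ℤ} {p : Arr G} (h : AR S c {Φ U * p})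
    (hk : Sq k (U' - U)) : AR S (c + k * u) {Φ U' * p} := by
  obtain ⟨A, hA, e⟩ := hΦ U U' k hk
  rw [e, Matrix.mul_assoc]
  exact h.mul hA

variable {H 𝒮 E Cn : Type} [Fintype 𝒮] [DecidableEq 𝒮] [Fintype E] [Fintype Cn]
    [DecidableEq H] {g : ℕ}

theorem Design.keyA (D : Design H 𝒮 E Cn g) (β : 𝒮 → Arr G) (s : 𝒮) :
    ∑ j, D.R s j • ∑ t, D.G j t • β t +
      ∑ e ∈ Finset.univ.filter (fun e => D.fst e = s), D.J e • β (D.snd e) = β s := by
  ext x z
  have := D.key (fun t => β t x z) s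
  simpa [Matrix.sum_apply] using this

/-- number of unit moves of one invocation -/
def invU (𝒮 E Cn : Type) [Fintype 𝒮] [Fintype E] [Fintype Cn] (g : ℕ) : ℕ :=
  Fintype.card Cn * (g + 2) + Fintype.card E * (g + 2) + 2 * Fintype.card 𝒮 * (g + 1)

/-- number of scalar operations (per array entry) of one invocation -/
def invL (𝒮 E Cn : Type) [Fintype 𝒮] [Fintype E] [Fintype Cn] : ℕ :=
  2 * Fintype.card Cn * Fintype.card 𝒮 + 2 * Fintype.card E +
    Fintype.card 𝒮 * (3 + 4 * Fintype.card E + 2 * Fintype.card Cn)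

theorem Design.invA (D : Design H 𝒮 E Cn g) {Φ : Matrix H H ℤ → Matrix G G ℂ} {u : ℕ}
    (hΦ : Frame Φ u) (α β : 𝒮 → Arr G) (a : E → Arr G) {S : Set (Arr G)}
    (hα : ∀ s, Φ (D.T s) * α s ∈ S) (hβ : ∀ s, Φ 0 * β s ∈ S) (ha : ∀ e, Φ 0 * a e ∈ S) :
    AR S (invU 𝒮 E Cn g * u + invL 𝒮 E Cn * Fintype.card G)
      (Set.range (fun s => Φ 1 * (α s - β s)) ∪ Set.range (fun s => Φ (1 - D.T s) * β s) ∪
        Set.range (fun e => Φ 1 * a e)) := by
  refine AR.mono_cost (AR.then_fam (fun j => Φ 1 * ∑ t, D.G j t • β t)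
    (fun j => hΦ.move (U := 0) ((AR.lin Finset.univ (D.G j) (fun t => Φ 0 * β t)
      (fun t _ => hβ t)).of_eq (by simp [Matrix.mul_sum])) (D.sq1.of_eq (sub_zero _)))
    fun S1 h1 hc =>
    AR.then_fam (fun e => Φ (D.T (D.fst e)) * (a e + β (D.snd e)))
    (fun e => hΦ.move (U := 0) (((AR.mem (h1 (ha e))).add (AR.mem (h1 (hβ (D.snd e))))).of_eq
      (Matrix.mul_add _ _ _)) ((D.sqT _).of_eq (sub_zero _)))
    fun S2 h2 ha1 =>
    AR.then_fam (fun s => Φ 1 * (α s - ∑ e ∈ Finset.univ.filter (fun e => D.fst e = s),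
      D.J e • (a e + β (D.snd e))))
    (fun s => hΦ.move (U := D.T s) (((AR.mem (h2 (h1 (hα s)))).sub
      (AR.lin (Finset.univ.filter (fun e => D.fst e = s)) D.J
        (fun e => Φ (D.T s) * (a e + β (D.snd e))) (fun e he => by
          have := ha1 e
          rwa [(Finset.mem_filter.mp he).2] at this))).of_eq
      (by simp only [Matrix.mul_sub, Matrix.mul_sum, Matrix.mul_smul])) (D.sqN s))
    fun S3 h3 hx1 =>
    AR.then_fam (fun s => Φ (1 - D.T s) * β s)
    (fun s => hΦ.move (U := 0) (AR.mem (h3 (h2 (h1 (hβ s))))) ((D.sqN s).of_eq (sub_zero _)))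
    fun S4 h4 hb1 =>
    AR.then_fam (fun e => Φ 1 * a e)
    (fun e => hΦ.move (U := 1 - D.T (D.snd e))
      (((hΦ.move (U' := 1 - D.T (D.snd e)) (AR.mem (h4 (h3 (ha1 e))))
        ((D.sqE e).of_eq (by abel))).sub (AR.mem (hb1 (D.snd e)))).of_eq
        (by rw [← Matrix.mul_sub, add_sub_cancel_right]))
      ((D.sqT (D.snd e)).of_eq (by abel)))
    fun S5 h5 ha2 =>
    AR.then_fam (fun s => Φ 1 * (α s - β s))
    (fun s => (((AR.mem (h5 (h4 (hx1 s)))).sub
      (AR.lin Finset.univ (D.R s) (fun j => Φ 1 * ∑ t, D.G j t • β t)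
        (fun j _ => h5 (h4 (h3 (h2 (hc j))))))).add
      (AR.lin (Finset.univ.filter (fun e => D.fst e = s)) D.J (fun e => Φ 1 * a e)
        (fun e _ => ha2 e))).of_eq (by
          conv_lhs => rw [← D.keyA β s]
          simp only [← Matrix.mul_smul, ← Matrix.mul_sum, ← Matrix.mul_sub, ← Matrix.mul_add,
            smul_add, Finset.sum_add_distrib]
          congr 1
          abel))
    fun S6 h6 hx2 => AR.base (c := 0) ?_) (le_of_eq ?_)
  · rintro _ ((⟨s, rfl⟩ | ⟨s, rfl⟩) | ⟨e, rfl⟩)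
    · exact hx2 s
    · exact h6 (h5 (hb1 s))
    · exact h6 (ha2 e)
  · unfold invU invL; ring

theorem Design.invB (D : Design H 𝒮 E Cn g) {Φ : Matrix H H ℤ → Matrix G G ℂ} {u : ℕ}
    (hΦ : Frame Φ u) (ξ η : 𝒮 → Arr G) (a : E → Arr G) {S : Set (Arr G)}
    (hξ : ∀ s, Φ (D.T s) * ξ s ∈ S) (hη : ∀ s, Φ 0 * η s ∈ S) (ha : ∀ e, Φ 0 * a e ∈ S) :
    AR S (invU 𝒮 E Cn g * u + invL 𝒮 E Cn * Fintype.card G)
      (Set.range (fun s => Φ 1 * ξ s) ∪ Set.range (fun s => Φ (1 - D.T s) * (η s + ξ s)) ∪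
        Set.range (fun e => Φ 1 * a e)) := by
  refine AR.mono_cost (AR.then_fam (fun s => Φ 1 * ξ s)
    (fun s => hΦ.move (AR.mem (hξ s)) (D.sqN s))
    fun S1 h1 hx1 =>
    AR.then_fam (fun j => Φ 0 * ∑ t, D.G j t • ξ t)
    (fun j => hΦ.move (U := 1) ((AR.lin Finset.univ (D.G j) (fun t => Φ 1 * ξ t)
      (fun t _ => hx1 t)).of_eq (by simp [Matrix.mul_sum])) (D.sq1.neg.of_eq (zero_sub _)))
    fun S2 h2 hc =>
    AR.then_fam (fun e => Φ (1 - D.T (D.fst e)) * (a e + ξ (D.snd e)))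
    (fun e => hΦ.move (U := D.T (D.snd e))
      (((hΦ.move (U' := D.T (D.snd e)) (AR.mem (h2 (h1 (ha e))))
        ((D.sqT _).of_eq (sub_zero _))).add (AR.mem (h2 (h1 (hξ (D.snd e)))))).of_eq
        (Matrix.mul_add _ _ _)) (D.sqE e))
    fun S3 h3 ha1 =>
    AR.then_fam (fun e => Φ 1 * a e)
    (fun e => ((hΦ.move (U' := 1) (AR.mem (ha1 e)) ((D.sqT (D.fst e)).of_eq (by abel))).sub
      (AR.mem (h3 (h2 (hx1 (D.snd e)))))).of_eq
        (by rw [← Matrix.mul_sub, add_sub_cancel_right]))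
    fun S4 h4 ha2 =>
    AR.then_fam (fun s => Φ (1 - D.T s) * (η s + ξ s))
    (fun s => ((hΦ.move (U := 0) (U' := 1 - D.T s)
      (p := η s - ∑ e ∈ Finset.univ.filter (fun e => D.fst e = s), D.J e • a e +
        ∑ j, D.R s j • ∑ t, D.G j t • ξ t)
      ((((AR.mem (h4 (h3 (h2 (h1 (hη s)))))).sub
        (AR.lin (Finset.univ.filter (fun e => D.fst e = s)) D.J (fun e => Φ 0 * a e)
          (fun e _ => h4 (h3 (h2 (h1 (ha e))))))).add
        (AR.lin Finset.univ (D.R s) (fun j => Φ 0 * ∑ t, D.G j t • ξ t)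
          (fun j _ => h4 (h3 (hc j))))).of_eq
        (by simp only [Matrix.mul_add, Matrix.mul_sub, Matrix.mul_sum, Matrix.mul_smul]))
      ((D.sqN s).of_eq (sub_zero _))).add
      (AR.lin (Finset.univ.filter (fun e => D.fst e = s)) D.J
        (fun e => Φ (1 - D.T s) * (a e + ξ (D.snd e))) (fun e he => by
          have := h4 (ha1 e)
          rwa [(Finset.mem_filter.mp he).2] at this))).of_eq (by
          conv_lhs => rw [← D.keyA ξ s]
          simp only [← Matrix.mul_smul, ← Matrix.mul_sum, ← Matrix.mul_sub, ← Matrix.mul_add,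
            smul_add, Finset.sum_add_distrib]
          congr 1
          abel))
    fun S5 h5 hy => AR.base (c := 0) ?_) (le_of_eq ?_)
  · rintro _ ((⟨s, rfl⟩ | ⟨s, rfl⟩) | ⟨e, rfl⟩)
    · exact h5 (h4 (h3 (h2 (hx1 s))))
    · exact hy s
    · exact h5 (ha2 e)
  · unfold invU invL; ring

end AR

end Crest.Agent.R324
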