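import Crest.Agent.R324.TwoStage

/-! The recursion for tensor powers of the butterfly. -/

set_option autoImplicit false
open Matrix
open scoped Kronecker

namespace Crest.Agent.R324

/-! ### the recursion -/

theorem Ck_split {ι κ : Type} [Fintype ι] [Fintype κ] [DecidableEq ι] [DecidableEq κ] {a b : ℕ}
    (ha : Cost (Ck ι ⊗ₖ (1 : Matrix (κ → Fin 2) (κ → Fin 2) ℂ)) a)
    (hb : Cost ((1 : Matrix (ι → Fin 2) (ι → Fin 2) ℂ) ⊗ₖ Ck κ) b) :
    Cost (Ck (ι ⊕ κ)) (a + b) := by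
  have h := ha.mul hb
  rw [← mul_kronecker_mul, Matrix.mul_one, Matrix.one_mul] at h
  have := h.submatrix (fun x : ι ⊕ κ → Fin 2 => (fun i => x (.inl i), fun k => x (.inr k)))
    (fun x : ι ⊕ κ → Fin 2 => (fun i => x (.inl i), fun k => x (.inr k))) (fun x y hxy => by
      funext i
      rcases i with i | i
      · exact congrFun (congrArg Prod.fst hxy) i
      · exact congrFun (congrArg Prod.snd hxy) i)
  convert this using 1
  ext x y
  simp [Ck, piKron_apply]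

theorem Ck_trivial (ι : Type) [Fintype ι] [DecidableEq ι] :
    Cost (Ck ι) (2 ^ Fintype.card ι * (2 * 2 ^ Fintype.card ι)) := by
  have := Cost.trivial (Ck ι)
  simpa using this

theorem Ck_net {H 𝒮 E Cn : Type} [Fintype 𝒮] [DecidableEq 𝒮] [Fintype E] [Fintype Cn]
    [DecidableEq H] [Fintype H] {g : ℕ} (D : Design H 𝒮 E Cn g)
    {ρ : Type} [Fintype ρ] [DecidableEq ρ]
    (hΩ : 2 * Fintype.card 𝒮 ^ 2 + 2 * Fintype.card 𝒮 * Fintype.card E ≤ 2 ^ Fintype.card ρ)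
    (s : ℕ) (hs : 2 ^ Fintype.card ρ * (g + 2) ^ 2 +
      2 * Fintype.card 𝒮 * Fintype.card Cn * (g + 2) ≤ s + Fintype.card 𝒮 ^ 2)
    (f c : ℕ) (hc : Cost (Ck (Fin f)) c) :
    Cost ((1 : Matrix (ρ → Fin 2) (ρ → Fin 2) ℂ) ⊗ₖ Ck (Fin f × (H × H)))
      (s * ((2 ^ Fintype.card (H × H)) ^ f / 2 ^ f * c) +
        netL 𝒮 E Cn * (2 ^ Fintype.card (H × H)) ^ f) := by
  have hΨ : Rep (Psi (M := H × H) f) ((2 ^ Fintype.card (H × H)) ^ f / 2 ^ f * c) :=
    ⟨Psi_add f, Psi_zero f, fun k B h => Psi_cost f hc h⟩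
  have h1 := D.net_cost hΨ (Ω := ρ → Fin 2) (by simpa using hΩ) s (by simpa using hs)
  rw [Psi_one_cost] at h1
  have e : Fintype.card (Fin f → H × H → Fin 2) = (2 ^ Fintype.card (H × H)) ^ f := by
    simp
  rw [e] at h1
  have := h1.submatrix
    (fun p : (ρ → Fin 2) × (Fin f × (H × H) → Fin 2) => (p.1, fun i j => p.2 (i, j)))
    (fun p : (ρ → Fin 2) × (Fin f × (H × H) → Fin 2) => (p.1, fun i j => p.2 (i, j)))
    (fun x y hxy => by
      simp only [Prod.mk.injEq] at hxy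
      refine Prod.ext hxy.1 ?_
      funext q
      exact congrFun (congrFun hxy.2 q.1) q.2)
  exact this

theorem one_kron_sum {ι ρ κ : Type} [Fintype ι] [DecidableEq ι] [Fintype ρ] [DecidableEq ρ]
    [Fintype κ] {A : Matrix κ κ ℂ} {c : ℕ}
    (h : Cost ((1 : Matrix (ρ → Fin 2) (ρ → Fin 2) ℂ) ⊗ₖ A) c) :
    Cost ((1 : Matrix (ι ⊕ ρ → Fin 2) (ι ⊕ ρ → Fin 2) ℂ) ⊗ₖ A) (2 ^ Fintype.card ι * c) := by
  have h1 := h.one_kron (ρ := ι → Fin 2)
  have := h1.submatrix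
    (fun p : (ι ⊕ ρ → Fin 2) × κ => (fun i => p.1 (.inl i), (fun i => p.1 (.inr i), p.2)))
    (fun p : (ι ⊕ ρ → Fin 2) × κ => (fun i => p.1 (.inl i), (fun i => p.1 (.inr i), p.2)))
    (fun x y hxy => by
      simp only [Prod.mk.injEq] at hxy
      refine Prod.ext ?_ hxy.2.2
      funext i
      rcases i with i | i
      · exact congrFun hxy.1 i
      · exact congrFun hxy.2.1 i)
  convert this using 1
  · ext ⟨x, y⟩ ⟨x', y'⟩
    simp only [kroneckerMap_apply, submatrix_apply, one_apply, ← mul_assoc]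
    congr 1
    by_cases h : x = x'
    · simp [h]
    · rw [if_neg h]
      by_cases h1 : (fun i => x (.inl i)) = fun i => x' (.inl i)
      · by_cases h2 : (fun i => x (.inr i)) = fun i => x' (.inr i)
        · exfalso
          apply h
          funext i
          rcases i with i | i
          · exact congrFun h1 i
          · exact congrFun h2 i
        · simp [h2]
      · simp [h1]
  · simp

theorem Ck_rec_gen {H 𝒮 E Cn : Type} [Fintype 𝒮] [DecidableEq 𝒮] [Fintype E] [Fintype Cn]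
    [DecidableEq H] [Fintype H] {g : ℕ} (D : Design H 𝒮 E Cn g) (r m J : ℕ)
    (hm : Fintype.card (H × H) = m + 1)
    (hΩ : 2 * Fintype.card 𝒮 ^ 2 + 2 * Fintype.card 𝒮 * Fintype.card E ≤ 2 ^ r)
    (s : ℕ) (hs : 2 ^ r * (g + 2) ^ 2 +
      2 * Fintype.card 𝒮 * Fintype.card Cn * (g + 2) ≤ s + Fintype.card 𝒮 ^ 2) :
    ∃ c0 : ℕ, ∀ f j c : ℕ, j < J → Cost (Ck (Fin f)) c →
    Cost (Ck (Fin (r + j + (m + 1) * f)))
      (2 ^ j * (s * (2 ^ (m * f) * c)) + c0 * 2 ^ (r + j + (m + 1) * f)) := by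
  refine ⟨2 * 2 ^ (r + J) + netL 𝒮 E Cn, fun f j c hj hc => ?_⟩
  have h2 := one_kron_sum (ι := Fin j) (Ck_net D (ρ := Fin r) (by simpa using hΩ) s
    (by simpa using hs) f c hc)
  have h3 := (Ck_trivial (Fin j ⊕ Fin r)).kron_one (ρ := Fin f × (H × H) → Fin 2)
  have h4 := Ck_cost_equiv (ι := Fin (r + j + (m + 1) * f))
    (Fintype.equivOfCardEq (by
      rw [Fintype.card_sum, Fintype.card_prod, hm]; simp; ring)) (Ck_split h3 h2)
  refine h4.mono ?_
  have e0 : Fintype.card (Fin f × H × H → Fin 2) = 2 ^ ((m + 1) * f) := by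
    rw [Fintype.card_fun, Fintype.card_prod, hm]; simp [mul_comm]
  have e : (2 ^ (m + 1)) ^ f / 2 ^ f = 2 ^ (m * f) := by
    rw [← pow_mul, Nat.pow_div (by nlinarith) (by norm_num)]
    congr 1
    rw [add_mul]; omega
  rw [e0, hm, e, ← pow_mul]
  simp only [Fintype.card_fin, Fintype.card_sum]
  have e1 : 2 ^ (r + j + (m + 1) * f) = 2 ^ r * 2 ^ j * 2 ^ ((m + 1) * f) := by
    rw [pow_add, pow_add]
  have e2 : 2 ^ (j + r) = 2 ^ r * 2 ^ j := by rw [pow_add]; ring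
  have e3 : 2 ^ (j + r) ≤ 2 ^ (r + J) := Nat.pow_le_pow_right (by norm_num) (by omega)
  rw [e1]
  generalize 2 ^ (r + J) = K at *
  generalize netL 𝒮 E Cn = L
  generalize s * (2 ^ (m * f) * c) = A
  have e5 : 1 ≤ 2 ^ r := Nat.one_le_two_pow
  rw [e2] at e3 ⊢
  generalize 2 ^ r = B at *
  generalize 2 ^ j = J at *
  generalize 2 ^ ((m + 1) * f) = F
  have i1 : F * (B * J * (2 * (B * J))) ≤ 2 * K * (B * J * F) := by
    have := Nat.mul_le_mul_left (2 * (B * J * F)) e3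
    nlinarith
  have i2 : J * (L * F) ≤ L * (B * J * F) := by
    have := Nat.mul_le_mul_left (L * J * F) e5
    nlinarith
  nlinarith

theorem Ck_rec : ∃ c0 : ℕ, ∀ f j c : ℕ, j < 800 → Cost (Ck (Fin f)) c →
    Cost (Ck (Fin (32 + j + (399 + 1) * f)))
      (2 ^ j * ((2 ^ 32 * 400 - 342000) * (2 ^ (399 * f) * c)) +
        c0 * 2 ^ (32 + j + (399 + 1) * f)) :=
  Ck_rec_gen triDesign 32 399 800 (by rw [Fintype.card_prod, Fintype.card_fin])
    (by have := card_Side; rw [card_Tri]; omega) _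
    (by rw [card_Tri, Fintype.card_option, Fintype.card_fin]; norm_num)

end Crest.Agent.R324
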