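import Crest.Agent.R324.Network

/-! The two-stage network and the resulting recursion for tensor powers of the butterfly. -/

set_option autoImplicit false
set_option linter.unusedSectionVars false
open Matrix
open scoped Kronecker

namespace Crest.Agent.R324

section
variable {G : Type} [Fintype G] [DecidableEq G]
variable {H 𝒮 E Cn : Type} [Fintype 𝒮] [DecidableEq 𝒮] [Fintype E] [Fintype Cn]
    [DecidableEq H] {g : ℕ}

theorem sub_kron {M M' : Type} (A B : Matrix M M ℤ) (C : Matrix M' M' ℤ) :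
    (A - B) ⊗ₖ C = A ⊗ₖ C - B ⊗ₖ C := by
  ext ⟨i, j⟩ ⟨k, l⟩; simp [sub_mul]

theorem kron_sub {M M' : Type} (A : Matrix M M ℤ) (B C : Matrix M' M' ℤ) :
    A ⊗ₖ (B - C) = A ⊗ₖ B - A ⊗ₖ C := by
  ext ⟨i, j⟩ ⟨k, l⟩; simp [mul_sub]

structure Rep {M : Type} (Ψ : Matrix M M ℤ → Matrix G G ℂ) (u : ℕ) : Prop where
  add : ∀ B B', Ψ (B + B') = Ψ B * Ψ B'
  zero : Ψ 0 = 1
  cost : ∀ k B, Sq k B → Cost (Ψ B) (k * u)

theorem Rep.frame {M : Type} {Ψ : Matrix M M ℤ → Matrix G G ℂ} {u : ℕ} (h : Rep Ψ u)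
    (L : Matrix H H ℤ → Matrix M M ℤ) (hL : ∀ U U' k, Sq k (U' - U) → Sq k (L U' - L U)) :
    Frame (fun U => Ψ (L U)) u := fun U U' k hk =>
  ⟨Ψ (L U' - L U), h.cost _ _ (hL U U' k hk), by rw [← h.add]; simp⟩

def netU (𝒮 E Cn : Type) [Fintype 𝒮] [Fintype E] [Fintype Cn] (g : ℕ) : ℕ :=
  2 * Fintype.card 𝒮 * invU 𝒮 E Cn g + 2 * Fintype.card 𝒮 ^ 2 * (g + 1) ^ 2 +
    2 * Fintype.card 𝒮 * Fintype.card E * (g + 1) * (g + 2) + Fintype.card 𝒮 ^ 2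

def netL (𝒮 E Cn : Type) [Fintype 𝒮] [Fintype E] [Fintype Cn] : ℕ :=
  2 * Fintype.card 𝒮 * invL 𝒮 E Cn + Fintype.card 𝒮 ^ 2

theorem Design.net (D : Design H 𝒮 E Cn g) {Ψ : Matrix (H × H) (H × H) ℤ → Matrix G G ℂ} {u : ℕ}
    (hΨ : Rep Ψ u) (P Q : 𝒮 × 𝒮 → Arr G) (a b : 𝒮 × E → Arr G) {S : Set (Arr G)}
    (hP : ∀ p, P p ∈ S) (hQ : ∀ p, Q p ∈ S) (ha : ∀ p, a p ∈ S) (hb : ∀ p, b p ∈ S) :
    AR S (netU 𝒮 E Cn g * u + netL 𝒮 E Cn * Fintype.card G)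
      ((Set.range (fun p => Ψ 1 * P p) ∪ Set.range (fun p => Ψ 1 * Q p)) ∪
        (Set.range (fun p => Ψ 1 * a p) ∪ Set.range (fun p => Ψ 1 * b p))) := by
  have fr : Frame Ψ u := hΨ.frame (fun U => U) (fun _ _ _ h => h)
  have frA : ∀ s, Frame (fun U => Ψ (U ⊗ₖ D.T s)) u := fun s =>
    hΨ.frame (fun U => U ⊗ₖ D.T s) (fun U U' k h =>
      ((h.kron (D.sqT s)).of_eq (sub_kron _ _ _).symm).mono (by omega))
  have frB : ∀ s, Frame (fun U => Ψ ((1 - D.T s) ⊗ₖ 1 + D.T s ⊗ₖ U)) u := fun s =>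
    hΨ.frame (fun U => (1 - D.T s) ⊗ₖ 1 + D.T s ⊗ₖ U) (fun U U' k h =>
      (((D.sqT s).kron h).of_eq (by rw [kron_sub]; abel)).mono (by omega))
  let α : 𝒮 × 𝒮 → Arr G := fun p => Ψ (-(D.T p.1 ⊗ₖ D.T p.2)) * P p
  have hα : ∀ p, Ψ (D.T p.1 ⊗ₖ D.T p.2) * α p = P p := fun p => by
    simp only [α]
    rw [← Matrix.mul_assoc, ← hΨ.add, add_neg_cancel, hΨ.zero, Matrix.one_mul]
  have h0 : ∀ p : Arr G, Ψ 0 * p = p := fun p => by rw [hΨ.zero, Matrix.one_mul]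
  have h11 : ∀ s, (1 - D.T s) ⊗ₖ (1 : Matrix H H ℤ) + D.T s ⊗ₖ 1 = 1 := fun s => by
    rw [sub_kron, one_kronecker_one]; abel
  refine AR.mono_cost (AR.then_set (AR.iUnion fun s2 =>
      D.invA (frA s2) (fun s1 => α (s1, s2)) (fun s1 => Q (s1, s2)) (fun e => a (s2, e)) (S := S)
        (fun s1 => by rw [hα (s1, s2)]; exact hP _)
        (fun s1 => by simp only [zero_kronecker, h0]; exact hQ _)
        (fun e => by simp only [zero_kronecker, h0]; exact ha _))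
    fun S1 h1 hA =>
    AR.then_fam (fun p : 𝒮 × 𝒮 => Ψ ((1 - D.T p.1) ⊗ₖ 1 + D.T p.1 ⊗ₖ D.T p.2) * (α p - Q p))
    (fun p => fr.move (U := 1 ⊗ₖ D.T p.2)
      (AR.mem (hA (Set.mem_iUnion.2 ⟨p.2, Or.inl (Or.inl ⟨p.1, rfl⟩)⟩)))
      (((D.sqN p.1).kron (D.sqN p.2)).of_eq (by simp only [sub_kron, kron_sub]; abel)))
    fun S2 h2 hX =>
    AR.then_fam (fun p : 𝒮 × 𝒮 => Ψ ((1 - D.T p.1) ⊗ₖ 1 + D.T p.1 ⊗ₖ 0) * Q p)
    (fun p => fr.move (U := (1 - D.T p.1) ⊗ₖ D.T p.2)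
      (AR.mem (h2 (hA (Set.mem_iUnion.2 ⟨p.2, Or.inl (Or.inr ⟨p.1, rfl⟩)⟩))))
      (((D.sqN p.1).kron (D.sqN p.2)).of_eq
        (by simp only [sub_kron, kron_sub, kronecker_zero]; abel)))
    fun S3 h3 hY =>
    AR.then_fam (fun p : 𝒮 × E => Ψ 1 * a p)
    (fun p => fr.move (U := 1 ⊗ₖ D.T p.1)
      (AR.mem (h3 (h2 (hA (Set.mem_iUnion.2 ⟨p.1, Or.inr ⟨p.2, rfl⟩⟩)))))
      ((D.sq1.kron (D.sqN p.1)).of_eq (by simp only [kron_sub, one_kronecker_one])))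
    fun S4 h4 hA' =>
    AR.then_fam (fun p : 𝒮 × E => Ψ ((1 - D.T p.1) ⊗ₖ 1 + D.T p.1 ⊗ₖ 0) * b p)
    (fun p => fr.move (U := 0)
      (AR.mem (by rw [h0]; exact h4 (h3 (h2 (h1 (hb p))))))
      (((D.sqN p.1).kron D.sq1).of_eq (by simp only [kronecker_zero]; abel)))
    fun S5 h5 hB' =>
    AR.then_set (AR.iUnion fun s1 =>
      D.invB (frB s1) (fun s2 => α (s1, s2) - Q (s1, s2)) (fun s2 => Q (s1, s2))
        (fun e => b (s1, e)) (S := S5)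
        (fun s2 => h5 (h4 (h3 (hX (s1, s2))))) (fun s2 => h5 (h4 (hY (s1, s2))))
        (fun e => hB' (s1, e)))
    fun S6 h6 hB =>
    AR.then_fam (fun p : 𝒮 × 𝒮 => Ψ 1 * P p)
    (fun p => (fr.move (U := (1 - D.T p.1) ⊗ₖ 1 + D.T p.1 ⊗ₖ (1 - D.T p.2))
      (U' := 1 + D.T p.1 ⊗ₖ D.T p.2) (p := α p)
      ((AR.mem (hB (Set.mem_iUnion.2 ⟨p.1, Or.inl (Or.inr ⟨p.2, rfl⟩)⟩))).of_eq (by simp))
      ((Sq.even 0 _ (Sq.kron_symm (D.sqT p.1).isSymm (D.sqT p.2).isSymm)).of_eq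
        (by simp only [sub_kron, kron_sub, one_kronecker_one, two_smul]; abel))).of_eq
      (by rw [hΨ.add, Matrix.mul_assoc, hα]))
    fun S7 h7 hP' =>
    AR.then_fam (fun p : 𝒮 × 𝒮 => Ψ 1 * Q p)
    (fun p => ((fr.move (U := (1 - D.T p.1) ⊗ₖ 1 + D.T p.1 ⊗ₖ (1 - D.T p.2))
      (U' := 1) (p := α p)
      ((AR.mem (h7 (hB (Set.mem_iUnion.2 ⟨p.1, Or.inl (Or.inr ⟨p.2, rfl⟩)⟩)))).of_eq (by simp))
      (((D.sqT p.1).kron (D.sqT p.2)).of_eq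
        (by simp only [sub_kron, kron_sub, one_kronecker_one]; abel))).sub
      (AR.mem (h7 (hB (Set.mem_iUnion.2 ⟨p.1, Or.inl (Or.inl ⟨p.2, rfl⟩)⟩))))).of_eq
      (by simp only [h11]; rw [← Matrix.mul_sub]; simp))
    fun S8 h8 hQ' => AR.base (c := 0) ?_) (le_of_eq ?_)
  · rintro _ ((⟨s, rfl⟩ | ⟨s, rfl⟩) | (⟨e, rfl⟩ | ⟨e, rfl⟩))
    · exact h8 (hP' s)
    · exact hQ' s
    · exact h8 (h7 (h6 (h5 (hA' e))))
    · have := h8 (h7 (hB (Set.mem_iUnion.2 ⟨e.1, Or.inr ⟨e.2, rfl⟩⟩)))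
      simpa only [h11] using this
  · simp only [Fintype.card_prod]
    unfold netU netL; ring

theorem cost_one_kron_of_AR {Ω : Type} [Fintype Ω] [DecidableEq Ω] {A : Matrix G G ℂ} {c : ℕ}
    (h : ∀ p : Ω → Arr G, AR (Set.range p) c (Set.range fun w => A * p w)) :
    Cost ((1 : Matrix Ω Ω ℂ) ⊗ₖ A) c := by
  intro x
  have := h fun w => Matrix.of fun g => x (w, g)
  refine (Reach.mono_left' this ?_).mono_right' ?_
  · rintro v ⟨p, ⟨w, rfl⟩, g, rfl⟩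
    exact ⟨(w, g), rfl⟩
  · rintro v ⟨⟨w, g⟩, rfl⟩
    refine ⟨_, ⟨w, rfl⟩, g, ?_⟩
    show (A * Matrix.of fun g => x (w, g) : Arr G) g = _
    rw [mul_row, mul_row, Fintype.sum_prod_type, Finset.sum_eq_single w]
    · simp; rfl
    · intro w' _ hw; simp [Ne.symm hw]
    · simp

theorem Design.net_cost (D : Design H 𝒮 E Cn g)
    {Ψ : Matrix (H × H) (H × H) ℤ → Matrix G G ℂ} {u : ℕ} (hΨ : Rep Ψ u)
    {Ω : Type} [Fintype Ω] [DecidableEq Ω]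
    (hΩ : 2 * Fintype.card 𝒮 ^ 2 + 2 * Fintype.card 𝒮 * Fintype.card E ≤ Fintype.card Ω)
    (s : ℕ) (hs : Fintype.card Ω * (g + 2) ^ 2 + 2 * Fintype.card 𝒮 * Fintype.card Cn * (g + 2) ≤
      s + Fintype.card 𝒮 ^ 2) :
    Cost ((1 : Matrix Ω Ω ℂ) ⊗ₖ Ψ 1) (s * u + netL 𝒮 E Cn * Fintype.card G) := by
  obtain ⟨r, hr⟩ := Nat.exists_eq_add_of_le hΩ
  let W := (((𝒮 × 𝒮) ⊕ (𝒮 × 𝒮)) ⊕ ((𝒮 × E) ⊕ (𝒮 × E))) ⊕ Fin r
  have e : W ≃ Ω := Fintype.equivOfCardEq (by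
    simp only [W, Fintype.card_sum, Fintype.card_prod, Fintype.card_fin, hr]; ring)
  refine cost_one_kron_of_AR fun p => ?_
  have h1 := D.net hΨ (fun i => p (e (.inl (.inl (.inl i))))) (fun i => p (e (.inl (.inl (.inr i)))))
    (fun i => p (e (.inl (.inr (.inl i))))) (fun i => p (e (.inl (.inr (.inr i)))))
    (S := Set.range p) (fun _ => ⟨_, rfl⟩) (fun _ => ⟨_, rfl⟩) (fun _ => ⟨_, rfl⟩)
    (fun _ => ⟨_, rfl⟩)
  have h2 := AR.iUnion (fun i : Fin r => (AR.mem (S := Set.range p) ⟨e (.inr i), rfl⟩).mul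
    (hΨ.cost _ _ ((D.sq1.kron D.sq1).of_eq (one_kronecker_one).symm)))
  refine ((h1.union h2).mono_right ?_).mono_cost ?_
  · rintro _ ⟨w, rfl⟩
    obtain ⟨w, rfl⟩ := e.surjective w
    rcases w with ((w | w) | (w | w)) | w
    · exact Or.inl (Or.inl (Or.inl ⟨w, rfl⟩))
    · exact Or.inl (Or.inl (Or.inr ⟨w, rfl⟩))
    · exact Or.inl (Or.inr (Or.inl ⟨w, rfl⟩))
    · exact Or.inl (Or.inr (Or.inr ⟨w, rfl⟩))
    · exact Or.inr (Set.mem_iUnion.2 ⟨w, rfl⟩)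
  · have : netU 𝒮 E Cn g + r * ((g + 2) * (g + 2)) ≤ s := by
      rw [hr] at hs
      unfold netU invU
      nlinarith
    have := Nat.mul_le_mul_right u this
    simp only [Fintype.card_fin]
    nlinarith

end

end Crest.Agent.R324
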